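import Vale.Agent.P146.H325.Alg

/-!
Trace identities as sums over ordered pairs of sites.
-/

open Matrix

namespace Vale.Agent.P146.H816

open Vale.Agent.P146.H332 Vale.Agent.P146.H325

set_option linter.unusedSectionVars false

variable {q : Type} [Fintype q] [DecidableEq q]

/-- scalar product of vectors -/
def dp (u v : q → ℝ) : ℝ := ∑ i, u i * v i

/-- column -/
def col (A : Matrix q q ℝ) (b : q) : q → ℝ := fun p => A p b

lemma dp_comm (u v : q → ℝ) : dp u v = dp v u := by
  unfold dp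
  exact Finset.sum_congr rfl fun i _ => mul_comm _ _

lemma dp_self (u : q → ℝ) : dp u u = vn u := by
  unfold dp vn
  exact Finset.sum_congr rfl fun i _ => by ring

lemma dp_sq_le (u v : q → ℝ) : dp u v ^ 2 ≤ vn u * vn v := cs_vec u v

lemma dp_col {A : Matrix q q ℝ} (hA : Aᵀ = A) (B : Matrix q q ℝ) (b b' : q) :
    dp (col A b) (col B b') = (A * B) b b' := by
  unfold dp col
  rw [mul_apply]
  refine Finset.sum_congr rfl fun k _ => ?_
  have : A k b = A b k := by
    conv_lhs => rw [← hA]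
    rfl
  rw [this]

lemma sum_vn_col (A : Matrix q q ℝ) : ∑ b, vn (col A b) = fr A := by
  unfold vn fr col
  exact Finset.sum_comm

/-- sums over ordered pairs of different sites -/
lemma sum_pairs (f : q → q → ℝ) :
    ∑ b, ∑ b' ∈ Finset.univ.erase b, f b b' = (∑ b, ∑ b', f b b') - ∑ b, f b b := by
  rw [← Finset.sum_sub_distrib]
  refine Finset.sum_congr rfl fun b _ => ?_
  rw [← Finset.add_sum_erase Finset.univ (f b) (Finset.mem_univ b)]
  ring

lemma sum_pairs_swap (f : q → q → ℝ) :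
    ∑ b, ∑ b' ∈ Finset.univ.erase b, f b b' = ∑ b, ∑ b' ∈ Finset.univ.erase b, f b' b := by
  rw [sum_pairs, sum_pairs (fun b b' => f b' b), Finset.sum_comm]

/-- **(0), first identity** -/
theorem pairs_G {A B : Matrix q q ℝ} (hA : Aᵀ = A) (hB : Bᵀ = B) :
    ∑ b, ∑ b' ∈ Finset.univ.erase b, (dp (col A b) (col B b') ^ 2 -
        dp (col A b) (col A b') * dp (col B b) (col B b')) =
      ∑ b, (vn (col A b) * vn (col B b) - dp (col A b) (col B b) ^ 2) := by
  rw [sum_pairs]
  have h1 : ∑ b, ∑ b', (dp (col A b) (col B b') ^ 2 -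
        dp (col A b) (col A b') * dp (col B b) (col B b')) = 0 := by
    simp only [dp_col hA, dp_col hB, Finset.sum_sub_distrib]
    have e1 : ∑ b, ∑ b', (A * B) b b' ^ 2 = fr (A * B) := rfl
    have e2 : ∑ b, ∑ b', (A * A) b b' * (B * B) b b' = ip (A * A) (B * B) := rfl
    rw [e1, e2, ip_eq_trace, fr_eq_trace, transpose_mul, transpose_mul, hA, hB]
    have e3 : (A * A * (B * B)).trace = (B * A * (A * B)).trace := by
      rw [show A * A * (B * B) = A * A * B * B by simp only [mul_assoc], Matrix.trace_mul_comm]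
      simp only [mul_assoc]
    rw [e3, Matrix.trace_mul_comm (A * B), sub_self]
  rw [h1, zero_sub, ← Finset.sum_neg_distrib]
  refine Finset.sum_congr rfl fun b _ => ?_
  rw [dp_self, dp_self]
  ring

/-- the diagonal terms are small -/
theorem pairs_G_bds {A B : Matrix q q ℝ} (hA : Aᵀ = A) (hB : Bᵀ = B) :
    0 ≤ ∑ b, ∑ b' ∈ Finset.univ.erase b, (dp (col A b) (col B b') ^ 2 -
        dp (col A b) (col A b') * dp (col B b) (col B b')) ∧
      ∑ b, ∑ b' ∈ Finset.univ.erase b, (dp (col A b) (col B b') ^ 2 -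
        dp (col A b) (col A b') * dp (col B b) (col B b')) ≤
      ∑ b, vn (col A b) * vn (col B b) := by
  rw [pairs_G hA hB]
  exact ⟨Finset.sum_nonneg fun b _ => by linarith [dp_sq_le (col A b) (col B b)],
    Finset.sum_le_sum fun b _ => by linarith [sq_nonneg (dp (col A b) (col B b))]⟩

/-- **(0), the commutator** -/
theorem pairs_comm {A B : Matrix q q ℝ} (hA : Aᵀ = A) (hB : Bᵀ = B) :
    fr (A * B - B * A) = ∑ b, ∑ b' ∈ Finset.univ.erase b, (2 * dp (col A b) (col B b') ^ 2 -
        2 * (dp (col A b) (col B b') * dp (col A b') (col B b))) := by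
  have h1 : fr (A * B - B * A) = ∑ b, ∑ b', ((A * B) b b' - (A * B) b' b) ^ 2 := by
    unfold fr
    refine Finset.sum_congr rfl fun b _ => Finset.sum_congr rfl fun b' _ => ?_
    have : (B * A) b b' = (A * B) b' b := by
      have h2 : B * A = (A * B)ᵀ := by rw [transpose_mul, hA, hB]
      rw [h2]
      rfl
    rw [Matrix.sub_apply, this]
  have h3 : ∑ b, ∑ b', ((A * B) b b' - (A * B) b' b) ^ 2 =
      ∑ b, ∑ b' ∈ Finset.univ.erase b, ((A * B) b b' - (A * B) b' b) ^ 2 := by
    rw [sum_pairs]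
    simp
  rw [h1, h3]
  have h4 : ∑ b, ∑ b' ∈ Finset.univ.erase b, ((A * B) b b' - (A * B) b' b) ^ 2 =
      ∑ b, ∑ b' ∈ Finset.univ.erase b, (A * B) b b' ^ 2 +
      ∑ b, ∑ b' ∈ Finset.univ.erase b, (A * B) b' b ^ 2 -
      ∑ b, ∑ b' ∈ Finset.univ.erase b, 2 * ((A * B) b b' * (A * B) b' b) := by
    rw [← Finset.sum_add_distrib, ← Finset.sum_sub_distrib]
    refine Finset.sum_congr rfl fun b _ => ?_
    rw [← Finset.sum_add_distrib, ← Finset.sum_sub_distrib]
    exact Finset.sum_congr rfl fun b' _ => by ring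
  rw [h4, ← sum_pairs_swap (fun b b' => (A * B) b b' ^ 2), ← Finset.sum_add_distrib,
    ← Finset.sum_sub_distrib]
  refine Finset.sum_congr rfl fun b _ => ?_
  rw [← Finset.sum_add_distrib, ← Finset.sum_sub_distrib]
  refine Finset.sum_congr rfl fun b' _ => ?_
  rw [dp_col hA, dp_col hA]
  ring

end Vale.Agent.P146.H816
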