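import Vale.Agent.P146.H325.Pos

/-!
Permutations of the sites act on the positions; equivariance of the matrices, of the densities and
of the conditional expectations.
-/

open MeasureTheory ProbabilityTheory

namespace Vale.Agent.P146.H816

open Vale.Agent.P157.Lv Vale.Agent.P146.H425 Vale.Agent.P146.H332 Vale.Agent.P146.H325 Matrix

set_option linter.unusedSectionVars false

variable {n : ℕ}

/-- action of a permutation of the sites on the couplings -/
def pf (π : Equiv.Perm (Fin n)) (e : Pair n) : Pair n :=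
  if h : π e.1.1 < π e.1.2 then ⟨(π e.1.1, π e.1.2), h⟩ else
    ⟨(π e.1.2, π e.1.1), lt_of_le_of_ne (not_lt.1 h)
      (fun h' => (ne_of_lt e.2) (π.injective h'.symm))⟩

lemma pf_pf {π ρ : Equiv.Perm (Fin n)} (h : ∀ x, ρ (π x) = x) (e : Pair n) :
    pf ρ (pf π e) = e := by
  obtain ⟨⟨i, j⟩, hij⟩ := e
  have hij' : i < j := hij
  by_cases h1 : π i < π j
  · have e1 : pf π ⟨(i, j), hij⟩ = ⟨(π i, π j), h1⟩ := by
      unfold pf
      rw [dif_pos h1]
    rw [e1]
    unfold pf
    have h2 : ρ (π i) < ρ (π j) := by rw [h, h]; exact hij'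
    rw [dif_pos h2]
    simp only [h]
  · have h1' : π j < π i := lt_of_le_of_ne (not_lt.1 h1)
      (fun h' => (ne_of_lt hij') (π.injective h'.symm))
    have e1 : pf π ⟨(i, j), hij⟩ = ⟨(π j, π i), h1'⟩ := by
      unfold pf
      rw [dif_neg h1]
    rw [e1]
    unfold pf
    have h2 : ¬ ρ (π j) < ρ (π i) := by rw [h, h]; exact not_lt.2 hij'.le
    rw [dif_neg h2]
    simp only [h]

/-- the permutation of the couplings -/
def pe (π : Equiv.Perm (Fin n)) : Equiv.Perm (Pair n) where
  toFun := pf π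
  invFun := pf π.symm
  left_inv := pf_pf fun x => π.symm_apply_apply x
  right_inv := pf_pf fun x => π.apply_symm_apply x

lemma pe_apply (π : Equiv.Perm (Fin n)) (e : Pair n) : pe π e = pf π e := rfl

lemma mem_row_pf (π : Equiv.Perm (Fin n)) (b : Fin n) (e : Pair n) :
    pf π e ∈ row (π b) ↔ e ∈ row b := by
  rw [mem_row, mem_row]
  unfold pf
  split_ifs with h
  · simp
  · simp only [EmbeddingLike.apply_eq_iff_eq]
    exact or_comm

lemma SkS_pf (π : Equiv.Perm (Fin n)) (e : Pair n) (σ : Fin n → ℤˣ) :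
    SkS (pf π e) σ = SkS e (fun i => σ (π i)) := by
  unfold SkS pf sp
  split_ifs with h
  · rfl
  · exact mul_comm _ _

/-- action on the positions -/
def act (π : Equiv.Perm (Fin n)) (v : Pair n → ℝ) : Pair n → ℝ := fun e => v (pf π e)

lemma mp_act (π : Equiv.Perm (Fin n)) :
    MeasurePreserving (act π) (gI (Pair n)) (gI (Pair n)) := by
  have h := measurePreserving_piCongrLeft (α := fun _ : Pair n => ℝ)
    (fun _ : Pair n => gaussianReal 0 1) (pe π).symm
  convert h using 1
  funext g e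
  rw [MeasurableEquiv.piCongrLeft, MeasurableEquiv.coe_mk]
  simp [act, Equiv.piCongrLeft_apply]
  rfl

lemma act_inj (π : Equiv.Perm (Fin n)) : MeasurableEmbedding (act (n := n) π) := by
  have h := (MeasurableEquiv.piCongrLeft (fun _ : Pair n => ℝ) (pe π).symm).measurableEmbedding
  convert h using 1
  funext g e
  rw [MeasurableEquiv.piCongrLeft, MeasurableEquiv.coe_mk]
  simp [act, Equiv.piCongrLeft_apply]
  rfl

/-- change of variables -/
lemma integral_act (π : Equiv.Perm (Fin n)) (f : (Pair n → ℝ) → ℝ) :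
    ∫ z, f (act π z) ∂(gI (Pair n)) = ∫ z, f z ∂(gI (Pair n)) :=
  (mp_act π).integral_comp (act_inj π) f

variable (k x : ℝ)

lemma ez_act (π : Equiv.Perm (Fin n)) (u : Pair n → ℝ) (σ : Fin n → ℤˣ) :
    ez k SkS (act π u) (fun i => σ (π i)) = ez k SkS u σ := by
  unfold ez act
  congr 2
  refine Fintype.sum_equiv (pe π) _ _ fun e => ?_
  rw [pe_apply, SkS_pf]

/-- relabelling of the configurations -/
def rel (π : Equiv.Perm (Fin n)) : (Fin n → ℤˣ) ≃ (Fin n → ℤˣ) where
  toFun σ := fun i => σ (π i)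
  invFun σ := fun i => σ (π.symm i)
  left_inv σ := by funext i; simp
  right_inv σ := by funext i; simp

lemma sum_act (π : Equiv.Perm (Fin n)) (u : Pair n → ℝ) (h : (Fin n → ℤˣ) → ℝ) :
    ∑ σ, ez k SkS (act π u) σ * h σ = ∑ σ, ez k SkS u σ * h (fun i => σ (π i)) := by
  refine (Fintype.sum_equiv (rel π) _ _ fun σ => ?_).symm
  show ez k SkS u σ * h (fun i => σ (π i)) =
    ez k SkS (act π u) (fun i => σ (π i)) * h (fun i => σ (π i))
  rw [ez_act]

lemma Zp_act (π : Equiv.Perm (Fin n)) (u : Pair n → ℝ) :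
    Zp k SkS (act π u) = Zp k SkS u := by
  have h := sum_act k π u fun _ => 1
  simp only [mul_one] at h
  exact h

lemma Zx_act (π : Equiv.Perm (Fin n)) (u : Pair n → ℝ) :
    Zx k SkS x (act π u) = Zx k SkS x u := by
  unfold Zx
  rw [Zp_act]

lemma av_act (π : Equiv.Perm (Fin n)) (h : (Fin n → ℤˣ) → ℝ) (u : Pair n → ℝ) :
    av k SkS h (act π u) = av k SkS (fun σ => h fun i => σ (π i)) u := by
  unfold av
  rw [sum_act, Zp_act]

lemma av_pr_act (π : Equiv.Perm (Fin n)) (p q : Fin n) (u : Pair n → ℝ) :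
    av k SkS (pr p q) (act π u) = av k SkS (pr (π p) (π q)) u := by
  rw [av_act]
  rfl

/-- smoothing commutes with the action -/
lemma PP_act (π : Equiv.Perm (Fin n)) {c c' : Pair n → ℝ} (hc : ∀ e, c' (pf π e) = c e)
    (F : (Pair n → ℝ) → ℝ) (v : Pair n → ℝ) :
    PP c F (act π v) = PP c' (fun u => F (act π u)) v := by
  unfold PP
  rw [← integral_act π]
  refine integral_congr_ae (Filter.Eventually.of_forall fun z => ?_)
  show F _ = F _
  congr 1
  funext e
  show v (pf π e) + c e * z (pf π e) = v (pf π e) + c' (pf π e) * z (pf π e)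
  rw [hc]

lemma DD_act (π : Equiv.Perm (Fin n)) {c c' : Pair n → ℝ} (hc : ∀ e, c' (pf π e) = c e)
    (v : Pair n → ℝ) : DD k (SkS (n := n)) x c (act π v) = DD k SkS x c' v := by
  unfold DD
  rw [PP_act π hc]
  simp only [Zx_act]

lemma RR_act (π : Equiv.Perm (Fin n)) {c c' : Pair n → ℝ} (hc : ∀ e, c' (pf π e) = c e)
    (F : (Pair n → ℝ) → ℝ) (v : Pair n → ℝ) :
    RR k (SkS (n := n)) x c F (act π v) = RR k SkS x c' (fun u => F (act π u)) v := by
  unfold RR
  rw [PP_act π hc, DD_act k x π hc]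
  simp only [Zx_act]

variable {k x}

theorem ND_act (π : Equiv.Perm (Fin n)) (t : ℝ) (v : Pair n → ℝ) :
    ND k x t (act π v) = ND k x t v :=
  DD_act k x π (c := cf t) (c' := cf t) (fun _ => rfl) v

theorem AA_act (π : Equiv.Perm (Fin n)) (t : ℝ) (v : Pair n → ℝ) (p q : Fin n) :
    AA k x t (act π v) p q = AA k x t v (π p) (π q) := by
  unfold AA
  rw [RR_act k x π (c := cf t) (c' := cf t) fun _ => rfl]
  simp only [av_pr_act]

lemma KK_act (π : Equiv.Perm (Fin n)) (b : Fin n) (v : Pair n → ℝ) :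
    KK b (act π v) = act π (KK (π b) v) := by
  funext e
  unfold KK act
  simp only [mem_row_pf]

theorem BB_act (π : Equiv.Perm (Fin n)) (b : Fin n) (t : ℝ) (v : Pair n → ℝ) (p q : Fin n) :
    BB k x b t (act π v) p q = BB k x (π b) t v (π p) (π q) := by
  unfold BB
  rw [KK_act, RR_act k x π (c := cb b t) (c' := cb (π b) t)]
  · simp only [av_pr_act]
  · intro e
    unfold cb
    simp only [mem_row_pf]

end Vale.Agent.P146.H816
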