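import Vale.Agent.P146.H816.Clean
import Vale.Agent.P146.H816.Pairs

/-!
R1, item (8), cleaning of one pair of sites under the law with Gaussian rows, and the sum over the
pairs.
-/

open MeasureTheory ProbabilityTheory

namespace Vale.Agent.P146.H816

open Vale.Agent.P157.Lv Vale.Agent.P146.H712

set_option linter.unusedSectionVars false

variable {ι : Type} [Fintype ι] [DecidableEq ι]

/-- the law with the density `φ` -/
noncomputable def dm (φ : (ι → ℝ) → ℝ) : Measure (ι → ℝ) :=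
  (gI ι).withDensity fun z => ENNReal.ofReal (φ z)

lemma integral_dm {φ : (ι → ℝ) → ℝ} (hφ : EG φ) (h0 : ∀ z, 0 ≤ φ z) (f : (ι → ℝ) → ℝ) :
    ∫ z, f z ∂(dm φ) = ∫ z, φ z * f z ∂(gI ι) := by
  unfold dm
  rw [integral_withDensity_eq_integral_toReal_smul hφ.meas.ennreal_ofReal
    (Filter.Eventually.of_forall fun z => ENNReal.ofReal_lt_top)]
  refine integral_congr_ae (Filter.Eventually.of_forall fun z => ?_)
  simp only [smul_eq_mul]
  rw [ENNReal.toReal_ofReal (h0 z)]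

lemma finite_dm {φ : (ι → ℝ) → ℝ} (hφ : EG φ) : IsFiniteMeasure (dm φ) := by
  unfold dm
  exact isFiniteMeasure_withDensity_ofReal hφ.integrable.2

/-- averages under a law which does not see the rows -/
lemma integral_mul_Av {S : Finset ι} {φ F : (ι → ℝ) → ℝ} (hφ : EG φ) (hF : EG F) (h : Ind S φ) :
    ∫ z, φ z * F z ∂(gI ι) = ∫ z, φ z * Av S F z ∂(gI ι) := by
  rw [← integral_Av S (hφ.mul hF)]
  refine integral_congr_ae (Filter.Eventually.of_forall fun z => ?_)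
  exact Av_mul h F z

/-- integrability under `dm φ` -/
lemma int_dm {φ f : (ι → ℝ) → ℝ} (hφ : EG φ) (h0 : ∀ z, 0 ≤ φ z) (hf : EG f) :
    Integrable f (dm φ) := by
  unfold dm
  rw [integrable_withDensity_iff hφ.meas.ennreal_ofReal
    (Filter.Eventually.of_forall fun z => ENNReal.ofReal_lt_top)]
  refine (hf.mul hφ).integrable.congr (Filter.Eventually.of_forall fun z => ?_)
  simp only
  rw [ENNReal.toReal_ofReal (h0 z)]

section pair

open Vale.Agent.P146.H706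

variable {q : Type} [Fintype q] [DecidableEq q] {R R' : Finset ι} {ρ : Equiv.Perm ι} {b b' : q}
  {a d a' d' A D A' D' : (ι → ℝ) → q → ℝ} {φ : (ι → ℝ) → ℝ} {M δ : ℝ}

lemma eg_vs {u : (ι → ℝ) → q → ℝ} (hu : ∀ i, EG fun z => u z i) : EG fun z => vs (u z) := by
  unfold vs
  exact EG.sum _ fun i _ => (hu i).pow 2

lemma eg_dp {u v : (ι → ℝ) → q → ℝ} (hu : ∀ i, EG fun z => u z i) (hv : ∀ i, EG fun z => v z i) :
    EG fun z => H706.dp (u z) (v z) := by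
  unfold H706.dp
  exact EG.sum _ fun i _ => (hu i).mul (hv i)

/-- sixth moments from the growth class -/
lemma s6_of {u : (ι → ℝ) → q → ℝ} (hφ : EG φ) (h0 : ∀ z, 0 ≤ φ z) (hu : ∀ i, EG fun z => u z i)
    (hM : ∫ z, φ z * vs (u z) ^ 3 ∂(gI ι) ≤ M) : S6 (dm φ) u M := by
  refine ⟨fun i => (hu i).meas, int_dm hφ h0 ((eg_vs hu).pow 3), ?_⟩
  rw [integral_dm hφ h0]
  exact hM

/-- mean squares from the growth class -/
lemma l2d_of {u v : (ι → ℝ) → q → ℝ} (hφ : EG φ) (h0 : ∀ z, 0 ≤ φ z) (hu : ∀ i, EG fun z => u z i)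
    (hv : ∀ i, EG fun z => v z i) (hδ : 0 ≤ δ)
    (h : ∫ z, φ z * vs (u z - v z) ∂(gI ι) ≤ δ ^ 2) : L2d (dm φ) u v δ := by
  refine ⟨hδ, int_dm hφ h0 (eg_vs fun i => (hu i).sub (hv i)), ?_⟩
  rw [integral_dm hφ h0]
  exact h

/-- the density, the full and the clean columns of a pair of sites -/
structure Pr (φ : (ι → ℝ) → ℝ) (A D A' D' a d a' d' : (ι → ℝ) → q → ℝ) (M δ : ℝ) : Prop where
  eφ : EG φ
  φ0 : ∀ z, 0 ≤ φ z
  eA : ∀ i, EG fun z => A z i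
  eD : ∀ i, EG fun z => D z i
  eA' : ∀ i, EG fun z => A' z i
  eD' : ∀ i, EG fun z => D' z i
  ea' : ∀ i, EG fun z => a' z i
  ed' : ∀ i, EG fun z => d' z i
  mA : ∫ z, φ z * vs (A z) ^ 3 ∂(gI ι) ≤ M
  mD : ∫ z, φ z * vs (D z) ^ 3 ∂(gI ι) ≤ M
  mA' : ∫ z, φ z * vs (A' z) ^ 3 ∂(gI ι) ≤ M
  mD' : ∫ z, φ z * vs (D' z) ^ 3 ∂(gI ι) ≤ M
  ma : ∫ z, φ z * vs (a z) ^ 3 ∂(gI ι) ≤ M
  md : ∫ z, φ z * vs (d z) ^ 3 ∂(gI ι) ≤ M
  ma' : ∫ z, φ z * vs (a' z) ^ 3 ∂(gI ι) ≤ M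
  md' : ∫ z, φ z * vs (d' z) ^ 3 ∂(gI ι) ≤ M
  hδ : 0 ≤ δ
  dA : ∫ z, φ z * vs (A z - a z) ∂(gI ι) ≤ δ ^ 2
  dD : ∫ z, φ z * vs (D z - d z) ∂(gI ι) ≤ δ ^ 2
  dA' : ∫ z, φ z * vs (A' z - a' z) ∂(gI ι) ≤ δ ^ 2
  dD' : ∫ z, φ z * vs (D' z - d' z) ∂(gI ι) ≤ δ ^ 2

/-- **Cleaning of one pair.** -/
theorem clean_pair (h : Two R R' ρ b b' a d a' d') (hP : Pr φ A D A' D' a d a' d' M δ)
    (hφ : Ind (R ∪ R') φ) :
    |(∫ z, φ z * (H706.dp (A z) (D' z) * H706.dp (A z) (D' z)) ∂(gI ι)) -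
        ∫ z, φ z * ∑ i, ∑ j, Nf R b b' a a i j z * Nf R b b' d d i j z ∂(gI ι)| ≤
          4 * (δ * √M) ∧
      |(∫ z, φ z * (H706.dp (A z) (A' z) * H706.dp (D z) (D' z)) ∂(gI ι)) -
        ∫ z, φ z * ∑ i, ∑ j, Nf R b b' a d i j z * Nf R b b' a d i j z ∂(gI ι)| ≤
          4 * (δ * √M) ∧
      |(∫ z, φ z * (H706.dp (A z) (D' z) * H706.dp (D z) (A' z)) ∂(gI ι)) -
        ∫ z, φ z * ∑ i, ∑ j, Nf R b b' a d i j z * Nf R b b' a d j i z ∂(gI ι)| ≤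
          4 * (δ * √M) := by
  haveI := finite_dm hP.eφ
  have sA := s6_of hP.eφ hP.φ0 hP.eA hP.mA
  have sD := s6_of hP.eφ hP.φ0 hP.eD hP.mD
  have sA' := s6_of hP.eφ hP.φ0 hP.eA' hP.mA'
  have sD' := s6_of hP.eφ hP.φ0 hP.eD' hP.mD'
  have sa := s6_of hP.eφ hP.φ0 h.ea hP.ma
  have sd := s6_of hP.eφ hP.φ0 h.ed hP.md
  have sa' := s6_of hP.eφ hP.φ0 hP.ea' hP.ma'
  have sd' := s6_of hP.eφ hP.φ0 hP.ed' hP.md'
  have lA := l2d_of hP.eφ hP.φ0 hP.eA h.ea hP.hδ hP.dA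
  have lD := l2d_of hP.eφ hP.φ0 hP.eD h.ed hP.hδ hP.dD
  have lA' := l2d_of hP.eφ hP.φ0 hP.eA' hP.ea' hP.hδ hP.dA'
  have lD' := l2d_of hP.eφ hP.φ0 hP.eD' hP.ed' hP.hδ hP.dD'
  have e : ∀ f : (ι → ℝ) → ℝ, ∫ z, f z ∂(dm φ) = ∫ z, φ z * f z ∂(gI ι) :=
    integral_dm hP.eφ hP.φ0
  have eg4 : ∀ {u v u' v' : (ι → ℝ) → q → ℝ}, (∀ i, EG fun z => u z i) →
      (∀ i, EG fun z => v z i) → (∀ i, EG fun z => u' z i) → (∀ i, EG fun z => v' z i) →
      EG fun z => H706.dp (u z) (v z) * H706.dp (u' z) (v' z) :=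
    fun h1 h2 h3 h4 => (eg_dp h1 h2).mul (eg_dp h3 h4)
  refine ⟨?_, ?_, ?_⟩
  · have h1 := (repl sA sD' sA sD' sa sd' sa sd' lA lD' lA lD').2.2
    rw [e, e] at h1
    rw [integral_mul_Av (F := fun z => H706.dp (a z) (d' z) * H706.dp (a z) (d' z)) hP.eφ
      (eg4 h.ea hP.ed' h.ea hP.ed') hφ] at h1
    simp only [(h.clean _).1] at h1
    exact h1
  · have h1 := (repl sA sA' sD sD' sa sa' sd sd' lA lA' lD lD').2.2
    rw [e, e] at h1
    rw [integral_mul_Av (F := fun z => H706.dp (a z) (a' z) * H706.dp (d z) (d' z)) hP.eφ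
      (eg4 h.ea hP.ea' h.ed hP.ed') hφ] at h1
    simp only [(h.clean _).2.1] at h1
    exact h1
  · have h1 := (repl sA sD' sD sA' sa sd' sd sa' lA lD' lD lA').2.2
    rw [e, e] at h1
    rw [integral_mul_Av (F := fun z => H706.dp (a z) (d' z) * H706.dp (d z) (a' z)) hP.eφ
      (eg4 h.ea hP.ed' h.ed hP.ea') hφ] at h1
    simp only [(h.clean _).2.2] at h1
    exact h1

end pair

/-! ### Jensen: the moments of the clean columns -/

section jensen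

open Vale.Agent.P146.H706

variable {q : Type} [Fintype q]

lemma Av_const (R : Finset ι) (c : ℝ) (z : ι → ℝ) : Av R (fun _ => c) z = c := by
  unfold Av
  simp

lemma Av_const_mul (R : Finset ι) (c : ℝ) (F : (ι → ℝ) → ℝ) (z : ι → ℝ) :
    Av R (fun z => c * F z) z = c * Av R F z := by
  unfold Av
  rw [integral_const_mul]

lemma Av_nonneg {R : Finset ι} {F : (ι → ℝ) → ℝ} (h : ∀ z, 0 ≤ F z) (z : ι → ℝ) :
    0 ≤ Av R F z := integral_nonneg fun _ => h _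

lemma Av_add {R : Finset ι} {F G : (ι → ℝ) → ℝ} (hF : EG F) (hG : EG G) (z : ι → ℝ) :
    Av R (fun z => F z + G z) z = Av R F z + Av R G z := by
  have h := Av_sum R (Finset.univ : Finset (Fin 2)) (F := ![F, G]) (by
    intro i _
    fin_cases i
    · exact hF
    · exact hG) z
  simpa [Fin.sum_univ_two] using h

/-- `(Av X)³ ≤ Av X³` for `X ≥ 0` -/
lemma Av_cube {R : Finset ι} {X : (ι → ℝ) → ℝ} (hX : EG X) (h0 : ∀ z, 0 ≤ X z) (z : ι → ℝ) :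
    Av R X z ^ 3 ≤ Av R (fun z => X z ^ 3) z := by
  set m := Av R X z with hm
  have hm0 : 0 ≤ m := Av_nonneg h0 z
  have h1 : Av R (fun z => 3 * m ^ 2 * X z + -(2 * m ^ 3)) z ≤ Av R (fun z => X z ^ 3) z := by
    refine Av_mono ((hX.const_mul _).add (EG.const _)) (hX.pow 3) (fun z => ?_) z
    have h2 := h0 z
    nlinarith [mul_nonneg (sq_nonneg (X z - m)) (by linarith : 0 ≤ X z + 2 * m)]
  rw [Av_add (hX.const_mul _) (EG.const _), Av_const_mul, Av_const, ← hm] at h1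
  nlinarith

/-- the moments of the averaged columns -/
lemma mom_Av {R : Finset ι} {φ : (ι → ℝ) → ℝ} {A : (ι → ℝ) → q → ℝ} (hφ : EG φ)
    (h0 : ∀ z, 0 ≤ φ z) (hi : Ind R φ) (hA : ∀ i, EG fun z => A z i) :
    ∫ z, φ z * vs (fun i => Av R (fun z => A z i) z) ^ 3 ∂(gI ι) ≤
      ∫ z, φ z * vs (A z) ^ 3 ∂(gI ι) := by
  have eA : EG fun z => vs (A z) := by
    unfold vs
    exact EG.sum _ fun i _ => (hA i).pow 2
  have ea : ∀ i, EG fun z => Av R (fun z => A z i) z := fun i => eg_Av R (hA i)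
  have ea' : EG fun z => vs (fun i => Av R (fun z => A z i) z) := by
    unfold vs
    exact EG.sum _ fun i _ => (ea i).pow 2
  rw [integral_mul_Av hφ (eA.pow 3) hi]
  refine integral_mono (hφ.mul (ea'.pow 3)).integrable (hφ.mul (eg_Av R (eA.pow 3))).integrable
    fun z => mul_le_mul_of_nonneg_left ?_ (h0 z)
  refine le_trans ?_ (Av_cube eA (fun z => vs_nonneg _) z)
  refine pow_le_pow_left₀ (vs_nonneg _) ?_ 3
  unfold vs
  rw [Av_sum R Finset.univ fun i _ => (hA i).pow 2]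
  exact Finset.sum_le_sum fun i _ => Av_sq_le (hA i) z

end jensen

end Vale.Agent.P146.H816
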