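import Vale.Agent.P146.H816.TwoSk
import Vale.Agent.P146.H706.LawK

/-!
R1, item (8): the sums over the ordered pairs of sites for the SK model, in the objects of `CDef`.
-/

open MeasureTheory ProbabilityTheory

namespace Vale.Agent.P146.R1C

open Vale.Agent.P157.Lv Vale.Agent.P146.H425 Vale.Agent.P146.H332 Vale.Agent.P146.H325
  Vale.Agent.P146.H712 Vale.Agent.P146.R1 Vale.Agent.P146.H816 Matrix

set_option linter.unusedSectionVars false

variable {n : ℕ} {k : ℝ} {q : Par} {F : (Pair n → ℝ) → ℝ} {D : Pair n → (Pair n → ℝ) → ℝ}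
  {B L : ℝ} {M δ lam : Fin n → Fin n → ℝ}

/-- the matrix at the time `s1` -/
noncomputable def A1 (k : ℝ) (q : Par) (w : K4 (Pair n) → ℝ) : Matrix (Fin n) (Fin n) ℝ :=
  AA k q.x q.s1 (P2 q w)

/-- the matrix at the time `s2` -/
noncomputable def A2 (k : ℝ) (q : Par) (w : K4 (Pair n) → ℝ) : Matrix (Fin n) (Fin n) ℝ :=
  AA k q.x q.s2 (P3 q w)

/-- the density with the two rows averaged out -/
noncomputable def ph (q : Par) (F : (Pair n → ℝ) → ℝ) (b b' : Fin n) :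
    (K4 (Pair n) → ℝ) → ℝ := Av (lf (row b ∪ row b')) (dens q F)

/-- the clean column at the time `s1`, with the entries at `b` and `b'` -/
noncomputable def a1 (k : ℝ) (q : Par) (b b' : Fin n) (w : K4 (Pair n) → ℝ) : Fin n → ℝ :=
  cl k q.x q.s1 b b' (P2 q w)

/-- the clean column at the time `s2`, with the entries at `b` and `b'` -/
noncomputable def a2 (k : ℝ) (q : Par) (b b' : Fin n) (w : K4 (Pair n) → ℝ) : Fin n → ℝ :=
  cl k q.x q.s2 b b' (P3 q w)

lemma a1_eq (hq : q.Ok) (b b' i : Fin n) (w : K4 (Pair n) → ℝ) :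
    a1 k q b b' w i = Av (lf (row b')) (fun w => A1 k q w i b) w :=
  (Av_lf_P2 hq (eg_AA q.s1 i b) (row b') w).symm

lemma a2_eq (hq : q.Ok) (b b' i : Fin n) (w : K4 (Pair n) → ℝ) :
    a2 k q b b' w i = Av (lf (row b')) (fun w => A2 k q w i b) w :=
  (Av_lf_P3 hq (eg_AA q.s2 i b) (row b') w).symm

/-- the moments and the touches of a pair -/
def PrSk (k : ℝ) (q : Par) (F : (Pair n → ℝ) → ℝ) (M δ : Fin n → Fin n → ℝ) : Prop :=
  ∀ b b', b' ≠ b → Pr (ph q F b b') (fun w => H816.col (A1 k q w) b) (fun w => H816.col (A2 k q w) b)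
    (fun w => H816.col (A1 k q w) b') (fun w => H816.col (A2 k q w) b') (a1 k q b b') (a2 k q b b')
    (a1 k q b' b) (a2 k q b' b) (M b b') (δ b b')

/-- the law change for a pair -/
def LamSk (k : ℝ) (q : Par) (F : (Pair n → ℝ) → ℝ) (lam : Fin n → Fin n → ℝ) : Prop :=
  ∀ b b', b' ≠ b → ∀ U V X Y : (K4 (Pair n) → ℝ) → Fin n → ℝ,
    (U = (fun w => H816.col (A1 k q w) b) ∨ U = (fun w => H816.col (A2 k q w) b)) →
    (V = (fun w => H816.col (A1 k q w) b') ∨ V = (fun w => H816.col (A2 k q w) b')) →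
    (X = (fun w => H816.col (A1 k q w) b) ∨ X = (fun w => H816.col (A2 k q w) b)) →
    (Y = (fun w => H816.col (A1 k q w) b') ∨ Y = (fun w => H816.col (A2 k q w) b')) →
    |(∫ w, dens q F w * (H706.dp (U w) (V w) * H706.dp (X w) (Y w)) ∂(gI (K4 (Pair n)))) -
      ∫ w, ph q F b b' w * (H706.dp (U w) (V w) * H706.dp (X w) (Y w)) ∂(gI (K4 (Pair n)))| ≤
        lam b b'

/-- the structure of the pairs, SK -/
abbrev ClSk (k : ℝ) (q : Par) (F : (Pair n → ℝ) → ℝ) (M δ lam : Fin n → Fin n → ℝ) : Prop :=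
  Cl (dens q F) (A1 k q) (A2 k q) (fun b => lf (row b)) (fun b b' => pk (Equiv.swap b b'))
    (ph q F) (a1 k q) (a2 k q) M δ lam

lemma eg_A1 (i j : Fin n) : EG fun w => A1 k q w i j := eg_P2 (eg_AA q.s1 i j)

lemma eg_A2 (i j : Fin n) : EG fun w => A2 k q w i j := eg_P3 (eg_AA q.s2 i j)

theorem cl_sk (h : C11 F D B L) (hx : 0 < q.x) (hP : PrSk k q F M δ) (hL : LamSk k q F lam) :
    ClSk k q F M δ lam where
  ep := eg_dens h hx
  p0 w := by rw [dens_eq]; exact (Real.exp_pos _).le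
  eA := eg_A1
  eD := eg_A2
  sA w := AA_T _
  sD w := AA_T _
  hT b b' hb := two_sk k q hb
  hP := hP
  hφ b b' _ := by
    unfold ph
    rw [← lf_union]
    exact ind_Av _ _
  l1 b b' hb := hL b b' hb _ _ _ _ (Or.inl rfl) (Or.inr rfl) (Or.inl rfl) (Or.inr rfl)
  l2 b b' hb := hL b b' hb _ _ _ _ (Or.inl rfl) (Or.inl rfl) (Or.inr rfl) (Or.inr rfl)
  l3 b b' hb := hL b b' hb _ _ _ _ (Or.inl rfl) (Or.inr rfl) (Or.inr rfl) (Or.inl rfl)

/-- integrals of bulk functions -/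
lemma int_ph (h : C11 F D B L) (hx : 0 < q.x) {b b' : Fin n} {f : (K4 (Pair n) → ℝ) → ℝ}
    (hf : EG f) (hi : Ind (lf (row b ∪ row b')) f) :
    ∫ w, ph q F b b' w * f w ∂(gI (K4 (Pair n))) = Ew q F f := by
  unfold ph Ew
  rw [← H712.integral_mul_Av (eg_dens h hx) hf]
  refine integral_congr_ae (Filter.Eventually.of_forall fun w => ?_)
  simp only
  rw [Av_ind hi]

lemma eg_Nd (b b' i j : Fin n) : EG fun w => Nd k q b b' w i j :=
  eg_Av _ ((eg_Ca q b b' i).mul (eg_Cd q b b' j))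

lemma eg_Sa (b b' i j : Fin n) : EG fun w => Sa k q b b' w i j :=
  eg_Av _ ((eg_Ca q b b' i).mul (eg_Ca q b b' j))

lemma eg_Sd (b b' i j : Fin n) : EG fun w => Sd k q b b' w i j :=
  eg_Av _ ((eg_Cd q b b' i).mul (eg_Cd q b b' j))

lemma eg_Gb (b b' : Fin n) : EG fun w => Gb k q b b' w := by
  unfold Gb ip fr
  exact (EG.sum _ fun i _ => EG.sum _ fun j _ => (eg_Sa b b' i j).mul (eg_Sd b b' i j)).sub
    (EG.sum _ fun i _ => EG.sum _ fun j _ => (eg_Nd b b' i j).pow 2)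

lemma eg_frNd (b b' : Fin n) : EG fun w => fr (Nd k q b b' w) := by
  unfold fr
  exact EG.sum _ fun i _ => EG.sum _ fun j _ => (eg_Nd b b' i j).pow 2

lemma eg_Yd (b b' : Fin n) : EG fun w => fr (Nd k q b b' w - (Nd k q b b' w)ᵀ) := by
  unfold fr
  exact EG.sum _ fun i _ => EG.sum _ fun j _ => ((eg_Nd b b' i j).sub (eg_Nd b b' j i)).pow 2

lemma Nd_ind (b b' : Fin n) (w w' : K4 (Pair n) → ℝ) :
    Nd k q b b' (sw (lf (row b ∪ row b')) w w') = Nd k q b b' w := by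
  funext i j
  exact ind_Av _ _ _ _

lemma Sa_ind (b b' : Fin n) (w w' : K4 (Pair n) → ℝ) :
    Sa k q b b' (sw (lf (row b ∪ row b')) w w') = Sa k q b b' w := by
  funext i j
  exact ind_Av _ _ _ _

lemma Sd_ind (b b' : Fin n) (w w' : K4 (Pair n) → ℝ) :
    Sd k q b b' (sw (lf (row b ∪ row b')) w w') = Sd k q b b' w := by
  funext i j
  exact ind_Av _ _ _ _

lemma ind_Gb (b b' : Fin n) : Ind (lf (row b ∪ row b')) fun w => Gb k q b b' w := by
  intro w w'
  simp only [Gb, Nd_ind, Sa_ind, Sd_ind]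

lemma ind_frNd (b b' : Fin n) : Ind (lf (row b ∪ row b')) fun w => fr (Nd k q b b' w) := by
  intro w w'
  simp only [Nd_ind]

lemma ind_Yd (b b' : Fin n) :
    Ind (lf (row b ∪ row b')) fun w => fr (Nd k q b b' w - (Nd k q b b' w)ᵀ) := by
  intro w w'
  simp only [Nd_ind]

/-- the diagonal term -/
noncomputable def Dg (k : ℝ) (q : Par) (w : K4 (Pair n) → ℝ) : ℝ :=
  ∑ b, vn (H816.col (A1 k q w) b) * vn (H816.col (A2 k q w) b)

/-- **(T1)** -/
theorem ClSk.t1 (hc : ClSk k q F M δ lam) (h : C11 F D B L) (hx : 0 < q.x) :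
    ∑ b, ∑ b' ∈ Finset.univ.erase b, Ew q F (fun w => Gb k q b b' w) ≤ Ew q F (Dg k q) +
      ∑ b, ∑ b' ∈ Finset.univ.erase b, (2 * lam b b' + 8 * (δ b b' * √(M b b'))) := by
  have h1 := Cl.s1 hc
  refine le_trans (le_of_eq ?_) h1
  refine Finset.sum_congr rfl fun b _ => Finset.sum_congr rfl fun b' _ => ?_
  rw [← int_ph h hx (eg_Gb b b') (ind_Gb b b')]
  refine integral_congr_ae (Filter.Eventually.of_forall fun w => ?_)
  simp only
  rw [Gb_eq]
  rfl

/-- **(T2)** -/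
theorem ClSk.t2 (hc : ClSk k q F M δ lam) (h : C11 F D B L) (hx : 0 < q.x) :
    Ew q F (fun w => fr (A1 k q w * A2 k q w - A2 k q w * A1 k q w)) ≤
      (∑ b, ∑ b' ∈ Finset.univ.erase b,
        Ew q F (fun w => fr (Nd k q b b' w - (Nd k q b b' w)ᵀ))) +
      2 * (∑ b, ∑ b' ∈ Finset.univ.erase b, Ew q F (fun w => Gb k q b b' w)) +
      ∑ b, ∑ b' ∈ Finset.univ.erase b, (4 * lam b b' + 16 * (δ b b' * √(M b b'))) := by
  have h1 := Cl.s2 hc
  refine h1.trans (le_of_eq ?_)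
  congr 1
  congr 1
  · refine Finset.sum_congr rfl fun b _ => Finset.sum_congr rfl fun b' _ => ?_
    rw [← int_ph h hx (eg_Yd b b') (ind_Yd b b')]
    refine integral_congr_ae (Filter.Eventually.of_forall fun w => ?_)
    simp only
    rw [Yb_eq]
    rfl
  · congr 1
    refine Finset.sum_congr rfl fun b _ => Finset.sum_congr rfl fun b' _ => ?_
    rw [← int_ph h hx (eg_Gb b b') (ind_Gb b b')]
    refine integral_congr_ae (Filter.Eventually.of_forall fun w => ?_)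
    simp only
    rw [Gb_eq]
    rfl

/-- **(T3)** -/
theorem ClSk.t3 (hc : ClSk k q F M δ lam) (h : C11 F D B L) (hx : 0 < q.x) :
    Ew q F (fun w => fr (A1 k q w * A2 k q w)) ≤ Ew q F (Dg k q) +
      (∑ b, ∑ b' ∈ Finset.univ.erase b, Ew q F (fun w => fr (Nd k q b b' w))) +
      ∑ b, ∑ b' ∈ Finset.univ.erase b, (lam b b' + 4 * (δ b b' * √(M b b'))) := by
  have h1 := Cl.s3 hc
  refine h1.trans (le_of_eq ?_)
  congr 1
  congr 1
  refine Finset.sum_congr rfl fun b _ => Finset.sum_congr rfl fun b' _ => ?_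
  rw [← int_ph h hx (eg_frNd b b') (ind_frNd b b')]
  refine integral_congr_ae (Filter.Eventually.of_forall fun w => ?_)
  simp only
  rw [Xb_eq]
  rfl

/-! ### the normalized form -/

lemma sum_pairs_le {m6 dl ls : ℝ} (hM : ∀ b b', b' ≠ b → M b b' ≤ m6)
    (hδ : ∑ b, ∑ b' ∈ Finset.univ.erase b, δ b b' ^ 2 ≤ dl)
    (hl : ∀ b b', b' ≠ b → lam b b' ≤ ls) (h0 : 0 ≤ ls) {c c' : ℝ} (hc : 0 ≤ c) (hc' : 0 ≤ c')
    (h6 : 0 ≤ m6) (hd : ∀ b b', b' ≠ b → 0 ≤ δ b b') :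
    ∑ b : Fin n, ∑ b' ∈ Finset.univ.erase b, (c * lam b b' + c' * (δ b b' * √(M b b'))) ≤
      c * (n ^ 2 * ls) + c' * (n * √(m6 * dl)) := by
  have e1 : ∑ b : Fin n, ∑ b' ∈ Finset.univ.erase b, lam b b' ≤ n ^ 2 * ls := by
    have h1 : ∀ b : Fin n, ∑ b' ∈ Finset.univ.erase b, lam b b' ≤ n * ls := by
      intro b
      refine (Finset.sum_le_sum fun b' hb' => hl b b' (Finset.ne_of_mem_erase hb')).trans ?_
      rw [Finset.sum_const, nsmul_eq_mul]
      refine mul_le_mul_of_nonneg_right ?_ h0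
      have h2 := Finset.card_le_univ (Finset.univ.erase b)
      rw [Fintype.card_fin] at h2
      exact_mod_cast h2
    refine (Finset.sum_le_sum fun b _ => h1 b).trans (le_of_eq ?_)
    rw [Finset.sum_const, Finset.card_univ, Fintype.card_fin, nsmul_eq_mul]
    ring
  have e2 : ∑ b : Fin n, ∑ b' ∈ Finset.univ.erase b, δ b b' * √(M b b') ≤
      n * √(m6 * dl) := by
    have h1 : ∀ b : Fin n, ∑ b' ∈ Finset.univ.erase b, δ b b' * √(M b b') ≤
        √(∑ b' ∈ Finset.univ.erase b, δ b b' ^ 2) * √(n * m6) := by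
      intro b
      have h2 : ∑ b' ∈ Finset.univ.erase b, δ b b' * √(M b b') ≤
          ∑ b' ∈ Finset.univ.erase b, δ b b' * √m6 :=
        Finset.sum_le_sum fun b' hb' => mul_le_mul_of_nonneg_left
          (Real.sqrt_le_sqrt (hM b b' (Finset.ne_of_mem_erase hb')))
          (hd b b' (Finset.ne_of_mem_erase hb'))
      refine h2.trans ?_
      have h3 := Finset.sum_mul_sq_le_sq_mul_sq (Finset.univ.erase b) (fun b' => δ b b')
        (fun _ => √m6)
      have h4 : ∑ b' ∈ Finset.univ.erase b, (√m6) ^ 2 ≤ n * m6 := by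
        rw [Finset.sum_const, nsmul_eq_mul, Real.sq_sqrt h6]
        refine mul_le_mul_of_nonneg_right ?_ h6
        have h2 := Finset.card_le_univ (Finset.univ.erase b)
        rw [Fintype.card_fin] at h2
        exact_mod_cast h2
      rw [← Real.sqrt_mul (Finset.sum_nonneg fun _ _ => sq_nonneg _)]
      exact Real.le_sqrt_of_sq_le (h3.trans (mul_le_mul_of_nonneg_left h4
        (Finset.sum_nonneg fun _ _ => sq_nonneg _)))
    refine (Finset.sum_le_sum fun b _ => h1 b).trans ?_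
    rw [← Finset.sum_mul]
    have h5 := Finset.sum_mul_sq_le_sq_mul_sq (Finset.univ : Finset (Fin n))
      (fun b => √(∑ b' ∈ Finset.univ.erase b, δ b b' ^ 2)) (fun _ => (1 : ℝ))
    simp only [mul_one, one_pow, Finset.sum_const, Finset.card_univ, Fintype.card_fin,
      nsmul_eq_mul] at h5
    have h6' : ∑ b : Fin n, √(∑ b' ∈ Finset.univ.erase b, δ b b' ^ 2) ^ 2 ≤ dl := by
      refine le_trans (le_of_eq (Finset.sum_congr rfl fun b _ => ?_)) hδ
      exact Real.sq_sqrt (Finset.sum_nonneg fun _ _ => sq_nonneg _)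
    have h7 : ∑ b : Fin n, √(∑ b' ∈ Finset.univ.erase b, δ b b' ^ 2) ≤ √(dl * n) :=
      Real.le_sqrt_of_sq_le (h5.trans (mul_le_mul_of_nonneg_right h6' (Nat.cast_nonneg n)))
    refine (mul_le_mul_of_nonneg_right h7 (Real.sqrt_nonneg _)).trans (le_of_eq ?_)
    have hdl : 0 ≤ dl := le_trans (Finset.sum_nonneg fun _ _ => Finset.sum_nonneg fun _ _ =>
      sq_nonneg _) hδ
    rw [← Real.sqrt_mul (by positivity), show dl * n * (n * m6) = n ^ 2 * (m6 * dl) by ring,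
      Real.sqrt_mul (by positivity), Real.sqrt_sq (Nat.cast_nonneg n)]
  simp only [Finset.sum_add_distrib, ← Finset.mul_sum]
  exact add_le_add (mul_le_mul_of_nonneg_left e1 hc) (mul_le_mul_of_nonneg_left e2 hc')

section norm

variable {m6 dl ls : ℝ}

lemma En_sum (f : Fin n → Fin n → (K4 (Pair n) → ℝ) → ℝ) :
    ∑ b, ∑ b' ∈ Finset.univ.erase b, En q F (f b b') =
      (∑ b, ∑ b' ∈ Finset.univ.erase b, Ew q F (f b b')) / Ew q F (fun _ => 1) := by
  unfold En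
  simp only [Finset.sum_div]

lemma err_scale {E : ℝ} (hE : 0 < E) {c c' : ℝ} :
    c * (n ^ 2 * (E * ls)) + c' * (n * √(E * m6 * (E * dl))) =
      (c * (n ^ 2 * ls) + c' * (n * √(m6 * dl))) * E := by
  have h1 : √(E * m6 * (E * dl)) = E * √(m6 * dl) := by
    rw [show E * m6 * (E * dl) = E ^ 2 * (m6 * dl) by ring, Real.sqrt_mul (sq_nonneg E),
      Real.sqrt_sq hE.le]
  rw [h1]
  ring

/-- the numbers of the errors: `M ≤ E m6`, `∑ δ² ≤ E dl`, `lam ≤ E ls` -/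
structure Nb (q : Par) (F : (Pair n → ℝ) → ℝ) (M δ lam : Fin n → Fin n → ℝ) (m6 dl ls : ℝ) :
    Prop where
  m0 : 0 ≤ m6
  l0 : 0 ≤ ls
  d0 : ∀ b b', b' ≠ b → 0 ≤ δ b b'
  hM : ∀ b b', b' ≠ b → M b b' ≤ Ew q F (fun _ => 1) * m6
  hδ : ∑ b, ∑ b' ∈ Finset.univ.erase b, δ b b' ^ 2 ≤ Ew q F (fun _ => 1) * dl
  hl : ∀ b b', b' ≠ b → lam b b' ≤ Ew q F (fun _ => 1) * ls

lemma Nb.err (hN : Nb q F M δ lam m6 dl ls) (h : C11 F D B L) (hx : 0 < q.x) {c c' : ℝ}
    (hc : 0 ≤ c) (hc' : 0 ≤ c') :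
    ∑ b : Fin n, ∑ b' ∈ Finset.univ.erase b, (c * lam b b' + c' * (δ b b' * √(M b b'))) ≤
      (c * (n ^ 2 * ls) + c' * (n * √(m6 * dl))) * Ew q F (fun _ => 1) := by
  have hE := Ew_one_pos (q := q) h hx
  rw [← err_scale hE]
  exact sum_pairs_le hN.hM hN.hδ hN.hl (mul_nonneg hE.le hN.l0) hc hc'
    (mul_nonneg hE.le hN.m0) hN.d0

/-- **(T1)**, normalized -/
theorem ClSk.n1 (hc : ClSk k q F M δ lam) (hN : Nb q F M δ lam m6 dl ls) (h : C11 F D B L)
    (hx : 0 < q.x) :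
    ∑ b, ∑ b' ∈ Finset.univ.erase b, En q F (fun w => Gb k q b b' w) ≤ En q F (Dg k q) +
      (2 * (n ^ 2 * ls) + 8 * (n * √(m6 * dl))) := by
  have hE := Ew_one_pos (q := q) h hx
  rw [En_sum, div_le_iff₀ hE, add_mul]
  unfold En
  rw [div_mul_cancel₀ _ hE.ne']
  exact (hc.t1 h hx).trans (add_le_add le_rfl (hN.err h hx (by norm_num) (by norm_num)))

/-- **(T2)**, normalized -/
theorem ClSk.n2 (hc : ClSk k q F M δ lam) (hN : Nb q F M δ lam m6 dl ls) (h : C11 F D B L)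
    (hx : 0 < q.x) :
    En q F (fun w => fr (A1 k q w * A2 k q w - A2 k q w * A1 k q w)) ≤
      (∑ b, ∑ b' ∈ Finset.univ.erase b,
        En q F (fun w => fr (Nd k q b b' w - (Nd k q b b' w)ᵀ))) +
      2 * (∑ b, ∑ b' ∈ Finset.univ.erase b, En q F (fun w => Gb k q b b' w)) +
      (4 * (n ^ 2 * ls) + 16 * (n * √(m6 * dl))) := by
  have hE := Ew_one_pos (q := q) h hx
  rw [En_sum, En_sum]
  have h1 := (hc.t2 h hx).trans (add_le_add le_rfl (hN.err h hx (by norm_num) (by norm_num)))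
  unfold En
  rw [div_le_iff₀ hE]
  refine h1.trans (le_of_eq ?_)
  field_simp

/-- **(T3)**, normalized -/
theorem ClSk.n3 (hc : ClSk k q F M δ lam) (hN : Nb q F M δ lam m6 dl ls) (h : C11 F D B L)
    (hx : 0 < q.x) :
    En q F (fun w => fr (A1 k q w * A2 k q w)) ≤ En q F (Dg k q) +
      (∑ b, ∑ b' ∈ Finset.univ.erase b, En q F (fun w => fr (Nd k q b b' w))) +
      (1 * (n ^ 2 * ls) + 4 * (n * √(m6 * dl))) := by
  have hE := Ew_one_pos (q := q) h hx
  rw [En_sum]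
  have h1 := hN.err h hx (c := 1) (c' := 4) (by norm_num) (by norm_num)
  simp only [one_mul] at h1
  have h2 := (hc.t3 h hx).trans (add_le_add le_rfl h1)
  unfold En
  rw [div_le_iff₀ hE]
  refine h2.trans (le_of_eq ?_)
  field_simp

end norm

end Vale.Agent.P146.R1C
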