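import Vale.Agent.P146.H816.CleanP

/-!
R1, item (8): the sum over the ordered pairs of sites.
-/

open MeasureTheory ProbabilityTheory

namespace Vale.Agent.P146.H816

open Vale.Agent.P157.Lv Vale.Agent.P146.H712 Vale.Agent.P146.H332 Vale.Agent.P146.H325

set_option linter.unusedSectionVars false

variable {ι : Type} [Fintype ι] [DecidableEq ι] {q : Type} [Fintype q] [DecidableEq q]

lemma dp_eq (u v : q → ℝ) : H706.dp u v = dp u v := rfl

lemma vs_eq (u : q → ℝ) : H706.vs u = vn u := rfl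

/-- the third trace identity -/
theorem pairs_X {A B : Matrix q q ℝ} (hA : A.transpose = A) (hB : B.transpose = B) :
    fr (A * B) = ∑ b, vn (col A b) * vn (col B b) +
      ∑ b, ∑ b' ∈ Finset.univ.erase b, dp (col A b) (col A b') * dp (col B b) (col B b') := by
  have h1 : ∑ b, ∑ b' ∈ Finset.univ.erase b, (dp (col A b) (col B b') ^ 2 -
      dp (col A b) (col A b') * dp (col B b) (col B b')) =
      ∑ b, ∑ b' ∈ Finset.univ.erase b, dp (col A b) (col B b') ^ 2 -
      ∑ b, ∑ b' ∈ Finset.univ.erase b, dp (col A b) (col A b') * dp (col B b) (col B b') := by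
    rw [← Finset.sum_sub_distrib]
    exact Finset.sum_congr rfl fun b _ => Finset.sum_sub_distrib _ _
  have h2 := pairs_G hA hB
  rw [h1, Finset.sum_sub_distrib] at h2
  have h3 : fr (A * B) = ∑ b, ∑ b' ∈ Finset.univ.erase b, dp (col A b) (col B b') ^ 2 +
      ∑ b, dp (col A b) (col B b) ^ 2 := by
    rw [sum_pairs, sub_add_cancel]
    simp only [dp_col hA]
    rfl
  linarith

/-- the error terms of the pairs -/
structure Cl (p : (ι → ℝ) → ℝ) (A D : (ι → ℝ) → Matrix q q ℝ) (R : q → Finset ι)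
    (ρ : q → q → Equiv.Perm ι) (φ : q → q → (ι → ℝ) → ℝ) (a d : q → q → (ι → ℝ) → q → ℝ)
    (M δ lam : q → q → ℝ) : Prop where
  ep : EG p
  p0 : ∀ w, 0 ≤ p w
  eA : ∀ i j, EG fun w => A w i j
  eD : ∀ i j, EG fun w => D w i j
  sA : ∀ w, (A w).transpose = A w
  sD : ∀ w, (D w).transpose = D w
  hT : ∀ b b', b' ≠ b → Two (R b) (R b') (ρ b b') b b' (a b b') (d b b') (a b' b) (d b' b)
  hP : ∀ b b', b' ≠ b → Pr (φ b b') (fun w => col (A w) b) (fun w => col (D w) b)
    (fun w => col (A w) b') (fun w => col (D w) b') (a b b') (d b b') (a b' b) (d b' b)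
    (M b b') (δ b b')
  hφ : ∀ b b', b' ≠ b → Ind (R b ∪ R b') (φ b b')
  l1 : ∀ b b', b' ≠ b → |(∫ w, p w * (H706.dp (col (A w) b) (col (D w) b') *
      H706.dp (col (A w) b) (col (D w) b')) ∂(gI ι)) - ∫ w, φ b b' w *
      (H706.dp (col (A w) b) (col (D w) b') * H706.dp (col (A w) b) (col (D w) b')) ∂(gI ι)| ≤
        lam b b'
  l2 : ∀ b b', b' ≠ b → |(∫ w, p w * (H706.dp (col (A w) b) (col (A w) b') *
      H706.dp (col (D w) b) (col (D w) b')) ∂(gI ι)) - ∫ w, φ b b' w *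
      (H706.dp (col (A w) b) (col (A w) b') * H706.dp (col (D w) b) (col (D w) b')) ∂(gI ι)| ≤
        lam b b'
  l3 : ∀ b b', b' ≠ b → |(∫ w, p w * (H706.dp (col (A w) b) (col (D w) b') *
      H706.dp (col (D w) b) (col (A w) b')) ∂(gI ι)) - ∫ w, φ b b' w *
      (H706.dp (col (A w) b) (col (D w) b') * H706.dp (col (D w) b) (col (A w) b')) ∂(gI ι)| ≤
        lam b b'

/-- the fixed bulk functional `G` -/
noncomputable def Gf (R : Finset ι) (b b' : q) (a d : (ι → ℝ) → q → ℝ) (w : ι → ℝ) : ℝ :=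
  ∑ i, ∑ j, (Nf R b b' a a i j w * Nf R b b' d d i j w - Nf R b b' a d i j w ^ 2)

/-- the square of the antisymmetric part -/
noncomputable def Yf (R : Finset ι) (b b' : q) (a d : (ι → ℝ) → q → ℝ) (w : ι → ℝ) : ℝ :=
  ∑ i, ∑ j, (Nf R b b' a d i j w - Nf R b b' a d j i w) ^ 2

/-- the square of the mixed moment -/
noncomputable def Xf (R : Finset ι) (b b' : q) (a d : (ι → ℝ) → q → ℝ) (w : ι → ℝ) : ℝ :=
  ∑ i, ∑ j, Nf R b b' a d i j w ^ 2

section sum

variable {p : (ι → ℝ) → ℝ} {A D : (ι → ℝ) → Matrix q q ℝ} {R : q → Finset ι}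
  {ρ : q → q → Equiv.Perm ι} {φ : q → q → (ι → ℝ) → ℝ} {a d : q → q → (ι → ℝ) → q → ℝ}
  {M δ lam : q → q → ℝ}

lemma eg_Nf {R : Finset ι} {b b' : q} {a d : (ι → ℝ) → q → ℝ} (ha : ∀ i, EG fun z => a z i)
    (hd : ∀ i, EG fun z => d z i) (i j : q) : EG (Nf R b b' a d i j) :=
  eg_Av R ((eg_blk ha i).mul (eg_blk hd j))

lemma eg_col {A : (ι → ℝ) → Matrix q q ℝ} (h : ∀ i j, EG fun w => A w i j) (b i : q) :
    EG fun w => col (A w) b i := h i b

lemma eg_dp' {u v : (ι → ℝ) → q → ℝ} (hu : ∀ i, EG fun z => u z i) (hv : ∀ i, EG fun z => v z i) :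
    EG fun z => dp (u z) (v z) := by
  unfold dp
  exact EG.sum _ fun i _ => (hu i).mul (hv i)

lemma eg_vn' {u : (ι → ℝ) → q → ℝ} (hu : ∀ i, EG fun z => u z i) : EG fun z => vn (u z) := by
  unfold vn
  exact EG.sum _ fun i _ => (hu i).pow 2

lemma eg_sum_pairs {F : q → q → (ι → ℝ) → ℝ} (h : ∀ b b', EG (F b b')) :
    EG fun w => ∑ b, ∑ b' ∈ Finset.univ.erase b, F b b' w :=
  EG.sum _ fun b _ => EG.sum _ fun b' _ => h b b'

lemma int_sum_pairs {p : (ι → ℝ) → ℝ} (hp : EG p) {F : q → q → (ι → ℝ) → ℝ}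
    (h : ∀ b b', EG (F b b')) :
    ∫ w, p w * ∑ b, ∑ b' ∈ Finset.univ.erase b, F b b' w ∂(gI ι) =
      ∑ b, ∑ b' ∈ Finset.univ.erase b, ∫ w, p w * F b b' w ∂(gI ι) := by
  simp only [Finset.mul_sum]
  rw [integral_finsetSum _ fun b _ => (EG.sum _ fun b' _ => hp.mul (h b b')).integrable]
  refine Finset.sum_congr rfl fun b _ => ?_
  rw [integral_finsetSum _ fun b' _ => (hp.mul (h b b')).integrable]

/-- the pair functionals after cleaning and law change -/
lemma Cl.one (h : Cl p A D R ρ φ a d M δ lam) {b b' : q} (hb : b' ≠ b) :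
    (∫ w, φ b b' w * ∑ i, ∑ j, Nf (R b) b b' (a b b') (a b b') i j w *
        Nf (R b) b b' (d b b') (d b b') i j w ∂(gI ι)) ≤
      (∫ w, p w * (dp (col (A w) b) (col (D w) b') * dp (col (A w) b) (col (D w) b')) ∂(gI ι)) +
        (lam b b' + 4 * (δ b b' * √(M b b'))) ∧
    (∫ w, p w * (dp (col (A w) b) (col (D w) b') * dp (col (A w) b) (col (D w) b')) ∂(gI ι)) ≤
      (∫ w, φ b b' w * ∑ i, ∑ j, Nf (R b) b b' (a b b') (a b b') i j w *
        Nf (R b) b b' (d b b') (d b b') i j w ∂(gI ι)) +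
        (lam b b' + 4 * (δ b b' * √(M b b'))) ∧
    (∫ w, p w * (dp (col (A w) b) (col (A w) b') * dp (col (D w) b) (col (D w) b')) ∂(gI ι)) ≤
      (∫ w, φ b b' w * Xf (R b) b b' (a b b') (d b b') w ∂(gI ι)) +
        (lam b b' + 4 * (δ b b' * √(M b b'))) ∧
    (∫ w, p w * (dp (col (A w) b) (col (D w) b') * dp (col (D w) b) (col (A w) b')) ∂(gI ι)) ≥
      (∫ w, φ b b' w * ∑ i, ∑ j, Nf (R b) b b' (a b b') (d b b') i j w *
        Nf (R b) b b' (a b b') (d b b') j i w ∂(gI ι)) -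
        (lam b b' + 4 * (δ b b' * √(M b b'))) := by
  obtain ⟨c1, c2, c3⟩ := clean_pair (h.hT b b' hb) (h.hP b b' hb) (h.hφ b b' hb)
  have m1 := h.l1 b b' hb
  have m2 := h.l2 b b' hb
  have m3 := h.l3 b b' hb
  rw [abs_le] at c1 c2 c3 m1 m2 m3
  simp only [dp_eq] at c1 c2 c3 m1 m2 m3
  have e2 : ∀ w, Xf (R b) b b' (a b b') (d b b') w = ∑ i, ∑ j,
      Nf (R b) b b' (a b b') (d b b') i j w * Nf (R b) b b' (a b b') (d b b') i j w := by
    intro w
    unfold Xf
    exact Finset.sum_congr rfl fun i _ => Finset.sum_congr rfl fun j _ => sq _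
  simp only [e2]
  refine ⟨?_, ?_, ?_, ?_⟩
  · linarith [c1.1, m1.1]
  · linarith [c1.2, m1.2]
  · linarith [c2.2, m2.2]
  · linarith [c3.1, m3.1]

/-- **(S3)** -/
theorem Cl.s3 (h : Cl p A D R ρ φ a d M δ lam) :
    ∫ w, p w * fr (A w * D w) ∂(gI ι) ≤
      (∫ w, p w * ∑ b, vn (col (A w) b) * vn (col (D w) b) ∂(gI ι)) +
      (∑ b, ∑ b' ∈ Finset.univ.erase b, ∫ w, φ b b' w *
        Xf (R b) b b' (a b b') (d b b') w ∂(gI ι)) +
      ∑ b, ∑ b' ∈ Finset.univ.erase b, (lam b b' + 4 * (δ b b' * √(M b b'))) := by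
  have eg1 : EG fun w => ∑ b, vn (col (A w) b) * vn (col (D w) b) :=
    EG.sum _ fun b _ => (eg_vn' (eg_col h.eA b)).mul (eg_vn' (eg_col h.eD b))
  have eg2 : ∀ b b', EG fun w => dp (col (A w) b) (col (A w) b') *
      dp (col (D w) b) (col (D w) b') := fun b b' =>
    (eg_dp' (eg_col h.eA b) (eg_col h.eA b')).mul (eg_dp' (eg_col h.eD b) (eg_col h.eD b'))
  have e1 : ∀ w, p w * fr (A w * D w) = p w * (∑ b, vn (col (A w) b) * vn (col (D w) b)) +
      p w * ∑ b, ∑ b' ∈ Finset.univ.erase b,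
        dp (col (A w) b) (col (A w) b') * dp (col (D w) b) (col (D w) b') := by
    intro w
    rw [pairs_X (h.sA w) (h.sD w), mul_add]
  simp only [e1]
  rw [integral_add (h.ep.mul eg1).integrable (h.ep.mul (eg_sum_pairs eg2)).integrable,
    int_sum_pairs h.ep eg2, add_assoc, ← Finset.sum_add_distrib]
  refine add_le_add le_rfl (Finset.sum_le_sum fun b _ => ?_)
  rw [← Finset.sum_add_distrib]
  exact Finset.sum_le_sum fun b' hb' => (h.one (Finset.ne_of_mem_erase hb')).2.2.1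

/-- **(S1)** -/
theorem Cl.s1 (h : Cl p A D R ρ φ a d M δ lam) :
    (∑ b, ∑ b' ∈ Finset.univ.erase b, ∫ w, φ b b' w *
        Gf (R b) b b' (a b b') (d b b') w ∂(gI ι)) ≤
      (∫ w, p w * ∑ b, vn (col (A w) b) * vn (col (D w) b) ∂(gI ι)) +
      ∑ b, ∑ b' ∈ Finset.univ.erase b, (2 * lam b b' + 8 * (δ b b' * √(M b b'))) := by
  have eg1 : EG fun w => ∑ b, vn (col (A w) b) * vn (col (D w) b) :=
    EG.sum _ fun b _ => (eg_vn' (eg_col h.eA b)).mul (eg_vn' (eg_col h.eD b))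
  have eg2 : ∀ b b', EG fun w => dp (col (A w) b) (col (D w) b') ^ 2 -
      dp (col (A w) b) (col (A w) b') * dp (col (D w) b) (col (D w) b') := fun b b' =>
    ((eg_dp' (eg_col h.eA b) (eg_col h.eD b')).pow 2).sub
    ((eg_dp' (eg_col h.eA b) (eg_col h.eA b')).mul (eg_dp' (eg_col h.eD b) (eg_col h.eD b')))
  have h1 : ∑ b, ∑ b' ∈ Finset.univ.erase b, ∫ w, p w * (dp (col (A w) b) (col (D w) b') ^ 2 -
      dp (col (A w) b) (col (A w) b') * dp (col (D w) b) (col (D w) b')) ∂(gI ι) ≤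
      ∫ w, p w * ∑ b, vn (col (A w) b) * vn (col (D w) b) ∂(gI ι) := by
    rw [← int_sum_pairs h.ep eg2]
    exact integral_mono (h.ep.mul (eg_sum_pairs eg2)).integrable (h.ep.mul eg1).integrable
      fun w => mul_le_mul_of_nonneg_left (pairs_G_bds (h.sA w) (h.sD w)).2 (h.p0 w)
  refine le_trans ?_ (add_le_add h1 le_rfl)
  rw [← Finset.sum_add_distrib]
  refine Finset.sum_le_sum fun b _ => ?_
  rw [← Finset.sum_add_distrib]
  refine Finset.sum_le_sum fun b' hb' => ?_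
  have hb := Finset.ne_of_mem_erase hb'
  have hP := h.hP b b' hb
  have hTb := h.hT b b' hb
  obtain ⟨c1, c2, c3⟩ := clean_pair (h.hT b b' hb) hP (h.hφ b b' hb)
  have m2 := h.l2 b b' hb
  obtain ⟨o1, -, -, -⟩ := h.one hb
  rw [abs_le] at c2 m2
  simp only [dp_eq] at c2 m2
  have eN : ∀ i j, EG (Nf (R b) b b' (a b b') (d b b') i j) := eg_Nf hTb.ea hTb.ed
  have e3 : EG fun w => ∑ i, ∑ j, Nf (R b) b b' (a b b') (a b b') i j w *
      Nf (R b) b b' (d b b') (d b b') i j w := EG.sum _ fun i _ => EG.sum _ fun j _ =>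
    (eg_Nf hTb.ea hTb.ea i j).mul (eg_Nf hTb.ed hTb.ed i j)
  have e4 : EG fun w => ∑ i, ∑ j, Nf (R b) b b' (a b b') (d b b') i j w *
      Nf (R b) b b' (a b b') (d b b') i j w := EG.sum _ fun i _ => EG.sum _ fun j _ =>
    (eN i j).mul (eN i j)
  have g1 : ∫ w, φ b b' w * Gf (R b) b b' (a b b') (d b b') w ∂(gI ι) =
      (∫ w, φ b b' w * ∑ i, ∑ j, Nf (R b) b b' (a b b') (a b b') i j w *
        Nf (R b) b b' (d b b') (d b b') i j w ∂(gI ι)) -
      ∫ w, φ b b' w * ∑ i, ∑ j, Nf (R b) b b' (a b b') (d b b') i j w *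
        Nf (R b) b b' (a b b') (d b b') i j w ∂(gI ι) := by
    rw [← integral_sub (hP.eφ.mul e3).integrable (hP.eφ.mul e4).integrable]
    refine integral_congr_ae (Filter.Eventually.of_forall fun w => ?_)
    simp only
    rw [← mul_sub]
    congr 1
    unfold Gf
    rw [← Finset.sum_sub_distrib]
    refine Finset.sum_congr rfl fun i _ => ?_
    rw [← Finset.sum_sub_distrib]
    exact Finset.sum_congr rfl fun j _ => by rw [sq]
  have g2 : ∫ w, p w * (dp (col (A w) b) (col (D w) b') ^ 2 -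
      dp (col (A w) b) (col (A w) b') * dp (col (D w) b) (col (D w) b')) ∂(gI ι) =
      (∫ w, p w * (dp (col (A w) b) (col (D w) b') * dp (col (A w) b) (col (D w) b')) ∂(gI ι)) -
      ∫ w, p w * (dp (col (A w) b) (col (A w) b') * dp (col (D w) b) (col (D w) b')) ∂(gI ι) := by
    rw [← integral_sub (h.ep.mul ((eg_dp' (eg_col h.eA b) (eg_col h.eD b')).mul
      (eg_dp' (eg_col h.eA b) (eg_col h.eD b')))).integrable
      (h.ep.mul ((eg_dp' (eg_col h.eA b) (eg_col h.eA b')).mul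
        (eg_dp' (eg_col h.eD b) (eg_col h.eD b')))).integrable]
    refine integral_congr_ae (Filter.Eventually.of_forall fun w => ?_)
    simp only
    ring
  rw [g1, g2]
  linarith [c2.2, c2.1, m2.1, m2.2]

/-- **(S2)** -/
theorem Cl.s2 (h : Cl p A D R ρ φ a d M δ lam) :
    ∫ w, p w * fr (A w * D w - D w * A w) ∂(gI ι) ≤
      (∑ b, ∑ b' ∈ Finset.univ.erase b, ∫ w, φ b b' w *
        Yf (R b) b b' (a b b') (d b b') w ∂(gI ι)) +
      2 * (∑ b, ∑ b' ∈ Finset.univ.erase b, ∫ w, φ b b' w *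
        Gf (R b) b b' (a b b') (d b b') w ∂(gI ι)) +
      ∑ b, ∑ b' ∈ Finset.univ.erase b, (4 * lam b b' + 16 * (δ b b' * √(M b b'))) := by
  have eg2 : ∀ b b', EG fun w => 2 * dp (col (A w) b) (col (D w) b') ^ 2 -
      2 * (dp (col (A w) b) (col (D w) b') * dp (col (A w) b') (col (D w) b)) := fun b b' =>
    (((eg_dp' (eg_col h.eA b) (eg_col h.eD b')).pow 2).const_mul 2).sub
    (((eg_dp' (eg_col h.eA b) (eg_col h.eD b')).mul
      (eg_dp' (eg_col h.eA b') (eg_col h.eD b))).const_mul 2)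
  have e1 : ∀ w, p w * fr (A w * D w - D w * A w) = p w * ∑ b, ∑ b' ∈ Finset.univ.erase b,
      (2 * dp (col (A w) b) (col (D w) b') ^ 2 -
      2 * (dp (col (A w) b) (col (D w) b') * dp (col (A w) b') (col (D w) b))) := by
    intro w
    rw [pairs_comm (h.sA w) (h.sD w)]
  simp only [e1]
  rw [int_sum_pairs h.ep eg2, Finset.mul_sum, ← Finset.sum_add_distrib, ← Finset.sum_add_distrib]
  refine Finset.sum_le_sum fun b _ => ?_
  rw [Finset.mul_sum, ← Finset.sum_add_distrib, ← Finset.sum_add_distrib]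
  refine Finset.sum_le_sum fun b' hb' => ?_
  have hb := Finset.ne_of_mem_erase hb'
  have hP := h.hP b b' hb
  have hTb := h.hT b b' hb
  obtain ⟨-, o2, -, o4⟩ := h.one hb
  have eN : ∀ i j, EG (Nf (R b) b b' (a b b') (d b b') i j) := eg_Nf hTb.ea hTb.ed
  have e3 : EG fun w => ∑ i, ∑ j, Nf (R b) b b' (a b b') (a b b') i j w *
      Nf (R b) b b' (d b b') (d b b') i j w := EG.sum _ fun i _ => EG.sum _ fun j _ =>
    (eg_Nf hTb.ea hTb.ea i j).mul (eg_Nf hTb.ed hTb.ed i j)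
  have e5 : EG fun w => ∑ i, ∑ j, Nf (R b) b b' (a b b') (d b b') i j w *
      Nf (R b) b b' (a b b') (d b b') j i w := EG.sum _ fun i _ => EG.sum _ fun j _ =>
    (eN i j).mul (eN j i)
  have eY : EG (Yf (R b) b b' (a b b') (d b b')) := EG.sum _ fun i _ => EG.sum _ fun j _ =>
    ((eN i j).sub (eN j i)).pow 2
  have eG : EG (Gf (R b) b b' (a b b') (d b b')) := EG.sum _ fun i _ => EG.sum _ fun j _ =>
    ((eg_Nf hTb.ea hTb.ea i j).mul (eg_Nf hTb.ed hTb.ed i j)).sub ((eN i j).pow 2)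
  have g1 : (∫ w, φ b b' w * Yf (R b) b b' (a b b') (d b b') w ∂(gI ι)) +
      2 * (∫ w, φ b b' w * Gf (R b) b b' (a b b') (d b b') w ∂(gI ι)) =
      2 * (∫ w, φ b b' w * ∑ i, ∑ j, Nf (R b) b b' (a b b') (a b b') i j w *
        Nf (R b) b b' (d b b') (d b b') i j w ∂(gI ι)) -
      2 * ∫ w, φ b b' w * ∑ i, ∑ j, Nf (R b) b b' (a b b') (d b b') i j w *
        Nf (R b) b b' (a b b') (d b b') j i w ∂(gI ι) := by
    rw [← integral_const_mul, ← integral_const_mul, ← integral_const_mul,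
      ← integral_add (hP.eφ.mul eY).integrable ((hP.eφ.mul eG).const_mul 2).integrable,
      ← integral_sub ((hP.eφ.mul e3).const_mul 2).integrable
        ((hP.eφ.mul e5).const_mul 2).integrable]
    refine integral_congr_ae (Filter.Eventually.of_forall fun w => ?_)
    simp only
    have hsw : ∑ i, ∑ j, Nf (R b) b b' (a b b') (d b b') j i w ^ 2 =
        ∑ i, ∑ j, Nf (R b) b b' (a b b') (d b b') i j w ^ 2 := Finset.sum_comm
    have k1 : Yf (R b) b b' (a b b') (d b b') w =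
        2 * ∑ i, ∑ j, Nf (R b) b b' (a b b') (d b b') i j w ^ 2 -
        2 * ∑ i, ∑ j, Nf (R b) b b' (a b b') (d b b') i j w *
          Nf (R b) b b' (a b b') (d b b') j i w := by
      have k2 : Yf (R b) b b' (a b b') (d b b') w =
          ∑ i, ∑ j, Nf (R b) b b' (a b b') (d b b') i j w ^ 2 +
          ∑ i, ∑ j, Nf (R b) b b' (a b b') (d b b') j i w ^ 2 -
          2 * ∑ i, ∑ j, Nf (R b) b b' (a b b') (d b b') i j w *
          Nf (R b) b b' (a b b') (d b b') j i w := by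
        unfold Yf
        rw [Finset.mul_sum, ← Finset.sum_add_distrib, ← Finset.sum_sub_distrib]
        refine Finset.sum_congr rfl fun i _ => ?_
        rw [Finset.mul_sum, ← Finset.sum_add_distrib, ← Finset.sum_sub_distrib]
        exact Finset.sum_congr rfl fun j _ => by ring
      rw [k2, hsw]
      ring
    have k3 : Gf (R b) b b' (a b b') (d b b') w =
        ∑ i, ∑ j, Nf (R b) b b' (a b b') (a b b') i j w *
          Nf (R b) b b' (d b b') (d b b') i j w -
        ∑ i, ∑ j, Nf (R b) b b' (a b b') (d b b') i j w ^ 2 := by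
      unfold Gf
      rw [← Finset.sum_sub_distrib]
      exact Finset.sum_congr rfl fun i _ => Finset.sum_sub_distrib _ _
    rw [k1, k3]
    ring
  have g2 : ∫ w, p w * (2 * dp (col (A w) b) (col (D w) b') ^ 2 -
      2 * (dp (col (A w) b) (col (D w) b') * dp (col (A w) b') (col (D w) b))) ∂(gI ι) =
      2 * (∫ w, p w * (dp (col (A w) b) (col (D w) b') *
        dp (col (A w) b) (col (D w) b')) ∂(gI ι)) -
      2 * ∫ w, p w * (dp (col (A w) b) (col (D w) b') *
        dp (col (D w) b) (col (A w) b')) ∂(gI ι) := by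
    rw [← integral_const_mul, ← integral_const_mul,
      ← integral_sub ((h.ep.mul ((eg_dp' (eg_col h.eA b) (eg_col h.eD b')).mul
      (eg_dp' (eg_col h.eA b) (eg_col h.eD b')))).const_mul 2).integrable
      ((h.ep.mul ((eg_dp' (eg_col h.eA b) (eg_col h.eD b')).mul
        (eg_dp' (eg_col h.eD b) (eg_col h.eA b')))).const_mul 2).integrable]
    refine integral_congr_ae (Filter.Eventually.of_forall fun w => ?_)
    simp only
    rw [dp_comm (col (A w) b') (col (D w) b)]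
    ring
  rw [g2, g1]
  linarith [o2, o4]

end sum

end Vale.Agent.P146.H816
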