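import Vale.Agent.P146.H332.CPos
import Vale.Agent.P146.H712.Pos
import Vale.Agent.P146.H826.LawP
import Vale.Agent.P146.H816.CleanS

/-!
R1, item (8): the clean columns of the SK model satisfy the hypotheses `Two` of the cleaning of a
pair of sites; the fixed bulk functionals of `CDef`.
-/

open MeasureTheory ProbabilityTheory

namespace Vale.Agent.P146.H816

open Vale.Agent.P157.Lv Vale.Agent.P146.H425 Vale.Agent.P146.H332 Vale.Agent.P146.H325
  Vale.Agent.P146.H712 Vale.Agent.P146.R1 Vale.Agent.P146.R1C Matrix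

set_option linter.unusedSectionVars false

variable {n : ℕ} {k x s : ℝ}

/-! ### flips of the spin of a site -/

lemma PP_flp (b : Fin n) (c : Pair n → ℝ) {F : (Pair n → ℝ) → ℝ} (hF : EG F) (v : Pair n → ℝ) :
    PP c F (fun e => sg b e * v e) = PP c (fun u => F fun e => sg b e * u e) v := by
  unfold PP
  have h1 : Measurable fun z : Pair n → ℝ => F (fun e => sg b e * v e + c e * z e) :=
    hF.meas.comp (by fun_prop)
  rw [← int_flip (sg_sq b) h1]
  refine integral_congr_ae (Filter.Eventually.of_forall fun z => ?_)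
  simp only
  congr 1
  funext e
  ring

lemma AA_flp (b : Fin n) {p : Fin n} (hp : p ≠ b) (v : Pair n → ℝ) :
    AA k x s (fun e => sg b e * v e) p b = -AA k x s v p b := by
  unfold AA RR DD
  have h1 : EG fun u => Zx k (SkS (n := n)) x u * av k SkS (pr p b) u := ebd (eg_av k SkS _)
  have h2 : EG fun u => Zx k (SkS (n := n)) x u * 1 := ebd (EG.const 1)
  rw [PP_flp b (cf s) h1, PP_flp b (cf s) h2]
  simp only [Zx_flp, av_flp b hp]
  rw [← neg_div]
  congr 1
  unfold PP
  rw [← integral_neg]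
  refine integral_congr_ae (Filter.Eventually.of_forall fun z => ?_)
  simp only
  ring

/-- the average over the row of an odd function -/
lemma AvP_odd (b : Fin n) {f : (Pair n → ℝ) → ℝ} (hf : EG f)
    (h : ∀ z, f (fun e => sg b e * z e) = -f z) (z : Pair n → ℝ) : AvP s (row b) f z = 0 := by
  have h1 : AvP s (row b) f z = -AvP s (row b) f z := by
    unfold AvP
    have hm : Measurable fun g : Pair n → ℝ => f (sw (row b) z (√s • g)) := by
      refine hf.meas.comp (measurable_pi_lambda _ fun e => ?_)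
      unfold sw
      by_cases he : e ∈ row b
      · simp only [he, if_true, Pi.smul_apply, smul_eq_mul]
        fun_prop
      · simp only [he, if_false]
        exact measurable_const
    conv_lhs => rw [← int_flip (sg_sq b) hm]
    rw [← integral_neg]
    refine integral_congr_ae (Filter.Eventually.of_forall fun g => ?_)
    simp only
    rw [← h]
    congr 1
    funext e
    unfold sw sg
    by_cases he : e ∈ row b
    · simp [he]
    · simp [he]
  linarith

/-- the clean column of `b` vanishes at the other site -/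
lemma cl_other {b b' : Fin n} (h : b' ≠ b) (z : Pair n → ℝ) : cl k x s b b' z b' = 0 := by
  unfold cl
  refine AvP_odd b' (eg_AA s b' b) (fun z => ?_) z
  rw [AA_comm, AA_comm z]
  exact AA_flp b' h.symm z

/-- the clean column of `b` at `b` -/
lemma cl_self (b b' : Fin n) (z : Pair n → ℝ) : cl k x s b b' z b = 1 := by
  unfold cl AvP
  simp [AA_self]

/-! ### permutations of the sites -/

/-- the permutation of the coordinates -/
def pk (π : Equiv.Perm (Fin n)) : Equiv.Perm (K4 (Pair n)) :=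
  Equiv.sumCongr (pe π) (Equiv.sumCongr (pe π) (Equiv.sumCongr (pe π) (pe π)))

lemma bs_pk (π : Equiv.Perm (Fin n)) (j : K4 (Pair n)) : bs (pk π j) = pf π (bs j) := by
  rcases j with j | j | j | j <;> rfl

lemma mem_lf_pk (π : Equiv.Perm (Fin n)) (b : Fin n) (j : K4 (Pair n)) :
    pk π j ∈ lf (row (π b)) ↔ j ∈ lf (row b) := by
  rw [mem_lf_bs, mem_lf_bs, bs_pk, mem_row_pf]

lemma P0_act (π : Equiv.Perm (Fin n)) (q : Par) (w : K4 (Pair n) → ℝ) :
    P0 q (actp (pk π) w) = act π (P0 q w) := rfl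

lemma P1_act (π : Equiv.Perm (Fin n)) (q : Par) (w : K4 (Pair n) → ℝ) :
    P1 q (actp (pk π) w) = act π (P1 q w) := rfl

lemma P2_act (π : Equiv.Perm (Fin n)) (q : Par) (w : K4 (Pair n) → ℝ) :
    P2 q (actp (pk π) w) = act π (P2 q w) := rfl

lemma P3_act (π : Equiv.Perm (Fin n)) (q : Par) (w : K4 (Pair n) → ℝ) :
    P3 q (actp (pk π) w) = act π (P3 q w) := rfl

lemma AvP_act (π : Equiv.Perm (Fin n)) {R R' : Finset (Pair n)}
    (h : ∀ e, pf π e ∈ R ↔ e ∈ R') (f : (Pair n → ℝ) → ℝ) (z : Pair n → ℝ) :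
    AvP s R' f (act π z) = AvP s R (fun z => f (act π z)) z := by
  unfold AvP
  rw [← integral_act π]
  refine integral_congr_ae (Filter.Eventually.of_forall fun g => ?_)
  simp only
  congr 1
  funext e
  unfold sw act
  simp only [h e, Pi.smul_apply]

/-- equivariance of the clean columns -/
lemma cl_act {b b' : Fin n} {i : Fin n} (h1 : i ≠ b) (h2 : i ≠ b') (z : Pair n → ℝ) :
    cl k x s b b' (act (Equiv.swap b b') z) i = cl k x s b' b z i := by
  unfold cl
  rw [AvP_act (Equiv.swap b b') (R := row b) fun e => by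
    have := mem_row_pf (Equiv.swap b b') b' e
    rwa [Equiv.swap_apply_right] at this]
  congr 1
  funext z
  rw [AA_act, Equiv.swap_apply_of_ne_of_ne h1 h2, Equiv.swap_apply_left]

lemma pf_fix {π : Equiv.Perm (Fin n)} {e : Pair n} (h1 : π e.1.1 = e.1.1) (h2 : π e.1.2 = e.1.2) :
    pf π e = e := by
  unfold pf
  have h3 : π e.1.1 < π e.1.2 := by rw [h1, h2]; exact e.2
  rw [dif_pos h3]
  apply Subtype.ext
  simp [h1, h2]

lemma pk_fix {b b' : Fin n} {j : K4 (Pair n)} (h : j ∉ lf (row b) ∪ lf (row b')) :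
    pk (Equiv.swap b b') j = j := by
  rw [Finset.mem_union, mem_lf_bs, mem_lf_bs, mem_row, mem_row] at h
  push Not at h
  obtain ⟨⟨h1, h2⟩, h3, h4⟩ := h
  have h5 : pf (Equiv.swap b b') (bs j) = bs j :=
    pf_fix (Equiv.swap_apply_of_ne_of_ne h1 h3) (Equiv.swap_apply_of_ne_of_ne h2 h4)
  rcases j with j | j | j | j
  · exact congrArg Sum.inl h5
  · exact congrArg (fun e => Sum.inr (Sum.inl e)) h5
  · exact congrArg (fun e => Sum.inr (Sum.inr (Sum.inl e))) h5
  · exact congrArg (fun e => Sum.inr (Sum.inr (Sum.inr e))) h5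

/-! ### the instance -/

lemma eg_cl (b b' i : Fin n) : EG fun z => cl k x s b b' z i := eg_AvP (eg_AA s i b) s _

lemma ind_cl2 (q : Par) (s : ℝ) (b b' i : Fin n) :
    Ind (lf (row b')) fun w => cl k x s b b' (P2 q w) i := by
  intro w w'
  simp only
  rw [P2_sw]
  exact ind_AvP _ _ _ _ _

lemma ind_cl3 (q : Par) (s : ℝ) (b b' i : Fin n) :
    Ind (lf (row b')) fun w => cl k x s b b' (P3 q w) i := by
  intro w w'
  simp only
  rw [P3_sw]
  exact ind_AvP _ _ _ _ _

/-- **The SK instance.** -/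
theorem two_sk (k : ℝ) (q : Par) {b b' : Fin n} (h : b' ≠ b) :
    Two (lf (row b)) (lf (row b')) (pk (Equiv.swap b b')) b b'
      (fun w => cl k q.x q.s1 b b' (P2 q w)) (fun w => cl k q.x q.s2 b b' (P3 q w))
      (fun w => cl k q.x q.s1 b' b (P2 q w)) (fun w => cl k q.x q.s2 b' b (P3 q w)) where
  ea i := eg_P2 (eg_cl b b' i)
  ed i := eg_P3 (eg_cl b b' i)
  ia i := ind_cl2 q _ b b' i
  id i := ind_cl3 q _ b b' i
  a0 _ := cl_other h _
  d0 _ := cl_other h _
  a0' _ := cl_other h.symm _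
  d0' _ := cl_other h.symm _
  ha i h1 h2 w := by rw [P2_act, cl_act h1 h2]
  hd i h1 h2 w := by rw [P3_act, cl_act h1 h2]
  hR e := by
    have := mem_lf_pk (Equiv.swap b b') b e
    rwa [Equiv.swap_apply_left] at this
  hR' e := by
    have := mem_lf_pk (Equiv.swap b b') b' e
    rwa [Equiv.swap_apply_right] at this
  hρ e := pk_fix

/-- the columns of `CDef` -/
lemma blk_a (q : Par) (b b' : Fin n) :
    blk b b' (fun w => cl k q.x q.s1 b b' (P2 q w)) = Ca k q b b' := rfl

lemma blk_d (q : Par) (b b' : Fin n) :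
    blk b b' (fun w => cl k q.x q.s2 b b' (P3 q w)) = Cd k q b b' := rfl

lemma ind_Ca (q : Par) (b b' i : Fin n) : Ind (lf (row b')) fun w => Ca k q b b' w i :=
  ind_blk (a := fun w => cl k q.x q.s1 b b' (P2 q w)) (fun i => ind_cl2 q _ b b' i) i

lemma ind_Cd (q : Par) (b b' i : Fin n) : Ind (lf (row b')) fun w => Cd k q b b' w i :=
  ind_blk (a := fun w => cl k q.x q.s2 b b' (P3 q w)) (fun i => ind_cl3 q _ b b' i) i

lemma eg_Ca (q : Par) (b b' i : Fin n) : EG fun w => Ca k q b b' w i :=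
  eg_blk (a := fun w => cl k q.x q.s1 b b' (P2 q w)) (fun i => eg_P2 (eg_cl b b' i)) i

lemma eg_Cd (q : Par) (b b' i : Fin n) : EG fun w => Cd k q b b' w i :=
  eg_blk (a := fun w => cl k q.x q.s2 b b' (P3 q w)) (fun i => eg_P3 (eg_cl b b' i)) i

lemma ind_mul {ι : Type} [Fintype ι] [DecidableEq ι] {R : Finset ι} {f g : (ι → ℝ) → ℝ}
    (hf : Ind R f) (hg : Ind R g) : Ind R fun w => f w * g w := hf.mul hg

lemma Nd_eq (q : Par) (b b' i j : Fin n) (w : K4 (Pair n) → ℝ) :
    Nd k q b b' w i j = Nf (lf (row b)) b b' (fun w => cl k q.x q.s1 b b' (P2 q w))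
      (fun w => cl k q.x q.s2 b b' (P3 q w)) i j w := by
  unfold Nd Nf
  rw [lf_union]
  exact Av_union_ind (ind_mul (ind_Ca q b b' i) (ind_Cd q b b' j)) w

lemma Sa_eq (q : Par) (b b' i j : Fin n) (w : K4 (Pair n) → ℝ) :
    Sa k q b b' w i j = Nf (lf (row b)) b b' (fun w => cl k q.x q.s1 b b' (P2 q w))
      (fun w => cl k q.x q.s1 b b' (P2 q w)) i j w := by
  unfold Sa Nf
  rw [lf_union]
  exact Av_union_ind (ind_mul (ind_Ca q b b' i) (ind_Ca q b b' j)) w

lemma Sd_eq (q : Par) (b b' i j : Fin n) (w : K4 (Pair n) → ℝ) :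
    Sd k q b b' w i j = Nf (lf (row b)) b b' (fun w => cl k q.x q.s2 b b' (P3 q w))
      (fun w => cl k q.x q.s2 b b' (P3 q w)) i j w := by
  unfold Sd Nf
  rw [lf_union]
  exact Av_union_ind (ind_mul (ind_Cd q b b' i) (ind_Cd q b b' j)) w

lemma Gb_eq (q : Par) (b b' : Fin n) (w : K4 (Pair n) → ℝ) :
    Gb k q b b' w = Gf (lf (row b)) b b' (fun w => cl k q.x q.s1 b b' (P2 q w))
      (fun w => cl k q.x q.s2 b b' (P3 q w)) w := by
  unfold Gb Gf ip fr
  rw [← Finset.sum_sub_distrib]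
  refine Finset.sum_congr rfl fun i _ => ?_
  rw [← Finset.sum_sub_distrib]
  refine Finset.sum_congr rfl fun j _ => ?_
  rw [Sa_eq, Sd_eq, Nd_eq]

lemma Yb_eq (q : Par) (b b' : Fin n) (w : K4 (Pair n) → ℝ) :
    fr (Nd k q b b' w - (Nd k q b b' w)ᵀ) = Yf (lf (row b)) b b'
      (fun w => cl k q.x q.s1 b b' (P2 q w)) (fun w => cl k q.x q.s2 b b' (P3 q w)) w := by
  unfold Yf fr
  refine Finset.sum_congr rfl fun i _ => Finset.sum_congr rfl fun j _ => ?_
  rw [Matrix.sub_apply, transpose_apply, Nd_eq, Nd_eq]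

lemma Xb_eq (q : Par) (b b' : Fin n) (w : K4 (Pair n) → ℝ) :
    fr (Nd k q b b' w) = Xf (lf (row b)) b b'
      (fun w => cl k q.x q.s1 b b' (P2 q w)) (fun w => cl k q.x q.s2 b b' (P3 q w)) w := by
  unfold Xf fr
  refine Finset.sum_congr rfl fun i _ => Finset.sum_congr rfl fun j _ => ?_
  rw [Nd_eq]

end Vale.Agent.P146.H816
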