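import Vale.Agent.P146.H325.Eqs

/-!
The sum over the special site and the scalar end of the `3/4` proof.
-/

open Matrix

namespace Vale.Agent.P146.H816

open Vale.Agent.P146.H332 Vale.Agent.P146.H325

set_option linter.unusedSectionVars false

variable {n : ℕ}

lemma sum_qv (Y A B : Matrix (Fin n) (Fin n) ℝ) :
    ∑ b, qv Y (fun p => A p b) (fun p => B p b) = ∑ p, ∑ q, Y p q * (A * Bᵀ) p q := by
  unfold qv
  rw [Finset.sum_comm]
  refine Finset.sum_congr rfl fun p _ => ?_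
  rw [Finset.sum_comm]
  refine Finset.sum_congr rfl fun q _ => ?_
  simp only [Matrix.mul_apply, Matrix.transpose_apply, Finset.mul_sum]

/-- (X7 a), first identity -/
theorem sum_qv_AB {A B : Matrix (Fin n) (Fin n) ℝ} (hB : Bᵀ = B) :
    ∑ b, qv (A * B) (fun p => A p b) (fun p => B p b) = fr (A * B) := by
  rw [sum_qv, hB]
  unfold fr
  exact Finset.sum_congr rfl fun p _ => Finset.sum_congr rfl fun q _ => by ring

/-- (X7 a), second identity -/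
theorem sum_qv_BB {A B : Matrix (Fin n) (Fin n) ℝ} (hA : Aᵀ = A) (hB : Bᵀ = B) :
    ∑ b, qv (B * B) (fun p => A p b) (fun p => A p b) = fr (A * B) := by
  rw [sum_qv, hA, fr_eq_trace]
  have h1 : ∑ p, ∑ q, (B * B) p q * (A * A) p q = ip (B * B) (A * A) := rfl
  rw [h1, ip_eq_trace, transpose_mul, transpose_mul, hA, hB]
  rw [show B * B * (A * A) = B * B * A * A by simp only [mul_assoc], Matrix.trace_mul_comm,
    show A * (B * B * A) = A * B * (B * A) by simp only [mul_assoc]]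

/-- (X7 a), third identity -/
theorem sum_qv_AA {A : Matrix (Fin n) (Fin n) ℝ} (hA : Aᵀ = A) :
    ∑ b, (fr A * vn (fun p => A p b) - qv (A * A) (fun p => A p b) (fun p => A p b)) =
      fr A ^ 2 - fr (A * A) := by
  rw [Finset.sum_sub_distrib, sum_qv_BB hA hA, ← Finset.mul_sum]
  have h1 : ∑ b, vn (fun p => A p b) = fr A := by
    unfold vn fr
    exact Finset.sum_comm
  rw [h1, sq]

/-- the coefficient -/
lemma coef_ge {kap lam : ℝ} (hk : 0 < kap) (hk1 : kap ≤ 1) (hl : lam = 1 / (1 + kap / 2)) :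
    kap / 4 ≤ 1 - lam / 2 - 1 / (2 * lam * (1 + kap)) := by
  have h1 : 1 - lam / 2 - 1 / (2 * lam * (1 + kap)) =
      kap * (4 + 3 * kap) / (4 * (1 + kap) * (2 + kap)) := by
    rw [hl]
    field_simp
    ring
  rw [h1, div_le_div_iff₀ (by norm_num) (by positivity)]
  have h2 : (1 + kap) * (2 + kap) ≤ 4 + 3 * kap := by nlinarith
  nlinarith [mul_le_mul_of_nonneg_left h2 hk.le]

/-- one touch term -/
lemma touch_term {n k be x th rho Z0 D0 M R e : ℝ} (hn : 1 ≤ n)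
    (hk : k ^ 2 = be ^ 2 / n) (hx : 0 < x) (hth : 0 < th) (hrho : rho = th ^ 2 / (x ^ 2 * n))
    (hZ : 0 < Z0) (hD0 : D0 = n ^ 4 * Z0)
    (he : e ≤ 8 * n ^ 2 * Z0 * R + 6 * k ^ 2 * x ^ 2 * n * (rho * (D0 * M) + Z0 / rho ^ 3)) :
    5 / (th / n) * e ≤ D0 * (40 * (R / (th * n)) + 30 * be ^ 2 * (th * M) +
      30 * be ^ 2 * (x ^ 8 / th ^ 7)) := by
  have hn0 : 0 < n := by linarith
  have hc : 0 ≤ 5 / (th / n) := by positivity
  refine (mul_le_mul_of_nonneg_left he hc).trans (le_of_eq ?_)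
  rw [hk, hrho, hD0]
  field_simp
  ring

lemma fin_real {a c1 c2 d1 d2 g v w x th kap M1 M2 : ℝ} (ha : 0 ≤ a) (hc1 : 0 ≤ c1)
    (hc2 : 0 ≤ c2) (hd1 : 0 ≤ d1) (hd2 : 0 ≤ d2) (hg : 0 ≤ g) (hv : 0 ≤ v) (hw : 0 ≤ w)
    (hx : 0 ≤ x) (hth : 0 ≤ th) (hk : 0 ≤ kap) (hk1 : kap ≤ 1) (hM1 : 0 ≤ M1) (hM : M1 ≤ M2)
    (h : kap / 4 * (M1 - 4 * (v * d1)) ≤ 4 * (v * d1) + 4 * (v * d2) +
      3 / 2 * a + 132 * w * (x * M2) + 22 * (th * M2) +
      (40 * c1 + 30 * w * (th * M1) + 30 * w * g) +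
      (40 * c2 + 30 * w * (th * M2) + 30 * w * g)) :
    kap * M1 ≤ 1000 * (1 + w + v) * (a + (x + th) * M2 + g + (c1 + c2) + (d1 + d2)) := by
  have hM2 : 0 ≤ M2 := hM1.trans hM
  have h5 : w * (th * M1) ≤ w * (th * M2) :=
    mul_le_mul_of_nonneg_left (mul_le_mul_of_nonneg_left hM hth) hw
  have p6 : 0 ≤ v * d1 := mul_nonneg hv hd1
  have h6 : kap * (v * d1) ≤ v * d1 := mul_le_of_le_one_left p6 hk1
  have h7 : kap * M1 ≤ 20 * (v * (d1 + d2)) + 6 * a + 528 * (w * (x * M2)) + 88 * (th * M2) +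
      160 * (c1 + c2) + 240 * (w * (th * M2)) + 240 * (w * g) := by
    have e1 : kap * M1 = 4 * (kap / 4 * (M1 - 4 * (v * d1))) + 4 * (kap * (v * d1)) := by ring
    have e2 : 0 ≤ v * d2 := mul_nonneg hv hd2
    rw [e1]
    nlinarith
  refine h7.trans ?_
  have hS : 0 ≤ a + (x + th) * M2 + g + (c1 + c2) + (d1 + d2) := by positivity
  have k1 : 6 * a + 88 * (th * M2) + 160 * (c1 + c2) ≤
      1000 * (a + (x + th) * M2 + g + (c1 + c2) + (d1 + d2)) := by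
    have : 0 ≤ x * M2 := by positivity
    have : 0 ≤ th * M2 := by positivity
    nlinarith
  have k2 : 528 * (x * M2) + 240 * (th * M2) + 240 * g ≤
      1000 * (a + (x + th) * M2 + g + (c1 + c2) + (d1 + d2)) := by
    have : 0 ≤ x * M2 := by positivity
    have : 0 ≤ th * M2 := by positivity
    nlinarith
  have k3 : 20 * (d1 + d2) ≤
      1000 * (a + (x + th) * M2 + g + (c1 + c2) + (d1 + d2)) := by
    have : 0 ≤ x * M2 := by positivity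
    have : 0 ≤ th * M2 := by positivity
    nlinarith
  have k2' := mul_le_mul_of_nonneg_left k2 hw
  have k3' := mul_le_mul_of_nonneg_left k3 hv
  calc _ = (6 * a + 88 * (th * M2) + 160 * (c1 + c2)) +
        w * (528 * (x * M2) + 240 * (th * M2) + 240 * g) + v * (20 * (d1 + d2)) := by ring
    _ ≤ _ := add_le_add (add_le_add k1 k2') k3'
    _ = _ := by ring

/-- (X7 b) -/
theorem key_real {n k be x th kap lam rho Z0 D0 M1 M2 R1 R2 T D1 D2 e1 e2 : ℝ}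
    (hn : 1 ≤ n) (hbe : be ≠ 0) (hk : k ^ 2 = be ^ 2 / n) (hx : 0 < x) (hx1 : x ≤ 1)
    (hth : 0 < th) (hth1 : th ≤ 1) (hkap : 0 < kap) (hkap1 : kap ≤ 1)
    (hlam : lam = 1 / (1 + kap / 2)) (hrho : rho = th ^ 2 / (x ^ 2 * n))
    (hZ : 0 < Z0) (hD0 : D0 = n ^ 4 * Z0) (hM1 : 0 ≤ M1) (hM : M1 ≤ M2) (hR1 : 0 ≤ R1)
    (hR2 : 0 ≤ R2)
    (h : T - lam / 2 * T - 1 / (2 * lam * (1 + kap)) * T ≤ D1 + D2 + n * (3 / 2 * Z0) +
      n * (132 * k ^ 2 * x * (D0 * M2)) + n * (22 * (th / n) * (D0 * M2)) +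
      5 / (th / n) * (e1 + e2))
    (hD1 : D1 ≤ D0 * (4 / (k ^ 2 * x ^ 2 * n ^ 2) * R1))
    (hD2 : D2 ≤ D0 * (4 / (k ^ 2 * x ^ 2 * n ^ 2) * R2))
    (he1 : e1 ≤ 8 * n ^ 2 * Z0 * R1 + 6 * k ^ 2 * x ^ 2 * n * (rho * (D0 * M1) + Z0 / rho ^ 3))
    (he2 : e2 ≤ 8 * n ^ 2 * Z0 * R2 + 6 * k ^ 2 * x ^ 2 * n * (rho * (D0 * M2) + Z0 / rho ^ 3))
    (hT : 0 ≤ T) (hT1 : D0 * M1 - D0 * (4 / (k ^ 2 * x ^ 2 * n ^ 2) * R1) ≤ T) :
    kap * M1 ≤ 1000 * (1 + be ^ 2 + 1 / be ^ 2) * ((n ^ 3)⁻¹ + (x + th) * M2 + x ^ 8 / th ^ 7 +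
      (R1 + R2) / (th * n) + (R1 + R2) / (x ^ 2 * n)) := by
  have hn0 : 0 < n := by linarith
  have hb2 : 0 < be ^ 2 := by positivity
  have hD0p : 0 < D0 := by rw [hD0]; positivity
  have hM2 : 0 ≤ M2 := hM1.trans hM
  have q0 : ∀ R : ℝ, D0 * (4 / (k ^ 2 * x ^ 2 * n ^ 2) * R) =
      D0 * (4 * ((1 / be ^ 2) * (R / (x ^ 2 * n)))) := by
    intro R
    rw [hk]
    field_simp
  rw [q0] at hD1 hD2 hT1
  have t1 := touch_term hn hk hx hth hrho hZ hD0 he1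
  have t2 := touch_term hn hk hx hth hrho hZ hD0 he2
  have q1 : n * (3 / 2 * Z0) = D0 * (3 / 2 * (n ^ 3)⁻¹) := by
    rw [hD0]
    field_simp
  have q2 : n * (132 * k ^ 2 * x * (D0 * M2)) = D0 * (132 * be ^ 2 * (x * M2)) := by
    rw [hk]
    field_simp
  have q3 : n * (22 * (th / n) * (D0 * M2)) = D0 * (22 * (th * M2)) := by
    field_simp
  have hc := coef_ge hkap hkap1 hlam
  have h1 : kap / 4 * T ≤ T - lam / 2 * T - 1 / (2 * lam * (1 + kap)) * T := by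
    have := mul_le_mul_of_nonneg_right hc hT
    linarith
  have h2 : kap / 4 * (D0 * (M1 - 4 * ((1 / be ^ 2) * (R1 / (x ^ 2 * n))))) ≤ kap / 4 * T :=
    mul_le_mul_of_nonneg_left (by linarith) (by positivity)
  -- abbreviations
  obtain ⟨a, ha⟩ : ∃ a, a = (n ^ 3)⁻¹ := ⟨_, rfl⟩
  obtain ⟨c1, hc1⟩ : ∃ c, c = R1 / (th * n) := ⟨_, rfl⟩
  obtain ⟨c2, hc2⟩ : ∃ c, c = R2 / (th * n) := ⟨_, rfl⟩
  obtain ⟨d1, hd1⟩ : ∃ c, c = R1 / (x ^ 2 * n) := ⟨_, rfl⟩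
  obtain ⟨d2, hd2⟩ : ∃ c, c = R2 / (x ^ 2 * n) := ⟨_, rfl⟩
  obtain ⟨g, hg⟩ : ∃ c, c = x ^ 8 / th ^ 7 := ⟨_, rfl⟩
  obtain ⟨v, hv⟩ : ∃ c, c = 1 / be ^ 2 := ⟨_, rfl⟩
  obtain ⟨w, hw⟩ : ∃ c, c = be ^ 2 := ⟨_, rfl⟩
  have ha0 : 0 ≤ a := by rw [ha]; positivity
  have hc10 : 0 ≤ c1 := by rw [hc1]; positivity
  have hc20 : 0 ≤ c2 := by rw [hc2]; positivity
  have hd10 : 0 ≤ d1 := by rw [hd1]; positivity
  have hd20 : 0 ≤ d2 := by rw [hd2]; positivity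
  have hg0 : 0 ≤ g := by rw [hg]; positivity
  have hv0 : 0 ≤ v := by rw [hv]; positivity
  have hw0 : 0 ≤ w := by rw [hw]; positivity
  rw [q1, q2, q3, mul_add (5 / (th / n))] at h
  rw [add_div, add_div, ← ha, ← hc1, ← hc2, ← hd1, ← hd2, ← hg, ← hv, ← hw]
  rw [← ha, ← hw] at h
  rw [← hc1, ← hg, ← hw] at t1
  rw [← hc2, ← hg, ← hw] at t2
  rw [← hd1, ← hv] at h2 hD1
  rw [← hd2, ← hv] at hD2
  have h3 : D0 * (kap / 4 * (M1 - 4 * (v * d1))) ≤ D0 * (4 * (v * d1) + 4 * (v * d2) +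
      3 / 2 * a + 132 * w * (x * M2) + 22 * (th * M2) +
      (40 * c1 + 30 * w * (th * M1) + 30 * w * g) +
      (40 * c2 + 30 * w * (th * M2) + 30 * w * g)) := by
    calc D0 * (kap / 4 * (M1 - 4 * (v * d1))) = kap / 4 * (D0 * (M1 - 4 * (v * d1))) := by ring
      _ ≤ _ := h2.trans (h1.trans h)
      _ ≤ D0 * (4 * (v * d1)) + D0 * (4 * (v * d2)) + D0 * (3 / 2 * a) +
          D0 * (132 * w * (x * M2)) + D0 * (22 * (th * M2)) +
          (D0 * (40 * c1 + 30 * w * (th * M1) + 30 * w * g) +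
            D0 * (40 * c2 + 30 * w * (th * M2) + 30 * w * g)) :=
          add_le_add (add_le_add_left (add_le_add_left (add_le_add_left
            (add_le_add hD1 hD2) _) _) _) (add_le_add t1 t2)
      _ = _ := by ring
  exact fin_real ha0 hc10 hc20 hd10 hd20 hg0 hv0 hw0 hx.le hth.le hkap.le hkap1 hM1 hM
    (le_of_mul_le_mul_left h3 hD0p)

end Vale.Agent.P146.H816
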