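import Vale.Agent.P146.H325.Alg

/-!
The touch errors of the `3/4` proof (pure algebra).
-/

open Matrix

namespace Vale.Agent.P146.H816

open Vale.Agent.P146.H332 Vale.Agent.P146.H325

set_option linter.unusedSectionVars false

variable {q : Type} [Fintype q] [DecidableEq q]

/-- Young's inequality for `P² ≤ X · Y` -/
lemma young_abs {P X Y e : ℝ} (he : 0 < e) (hX : 0 ≤ X) (hP : P ^ 2 ≤ X * Y) (hY : 0 ≤ Y) :
    |P| ≤ e / 2 * Y + 1 / (2 * e) * X := by
  have h0 : 0 ≤ e / 2 * Y + 1 / (2 * e) * X := by positivity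
  refine abs_le_of_sq_le_sq (hP.trans ?_) h0
  have h1 : (e / 2 * Y) * (1 / (2 * e) * X) = X * Y / 4 := by
    field_simp
    ring
  nlinarith [sq_nonneg (e / 2 * Y - 1 / (2 * e) * X)]

/-- one factor is exchanged -/
lemma err_one (D B : Matrix q q ℝ) {U V : q → ℝ} {fA fB e : ℝ} (he : 0 < e)
    (hU : vn U ^ 2 ≤ fA) (hV : vn V ^ 2 ≤ fB) {Y : Matrix q q ℝ} (hY : fr Y ≤ fr D * fr B) :
    |∑ p, ∑ r, Y p r * (U p * V r)| ≤
      e / 2 * (fA ^ 2 + fB ^ 2 + fr B ^ 2) + 1 / (2 * e) * fr D := by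
  have hD := H332.fr_nonneg D
  have hB := H332.fr_nonneg B
  have hu := vn_nonneg U
  have hv := vn_nonneg V
  have h1 : (∑ p, ∑ r, Y p r * (U p * V r)) ^ 2 ≤ fr D * (fr B * (vn U * vn V)) := by
    refine (cs_form Y U V).trans ?_
    refine (mul_le_mul_of_nonneg_right hY (mul_nonneg hu hv)).trans (le_of_eq ?_)
    ring
  have h2 := young_abs he hD h1 (by positivity)
  refine h2.trans ?_
  have h3 : fr B * (vn U * vn V) ≤ fA ^ 2 + fB ^ 2 + fr B ^ 2 := by
    have h4 : (vn U * vn V) ^ 2 ≤ fA * fB := by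
      rw [mul_pow]
      exact mul_le_mul hU hV (sq_nonneg _) ((sq_nonneg _).trans hU)
    nlinarith [sq_nonneg (fr B - vn U * vn V), sq_nonneg (fA - fB), sq_nonneg (fA), sq_nonneg fB,
      sq_nonneg (fr B)]
  have h5 : e / 2 * (fr B * (vn U * vn V)) ≤ e / 2 * (fA ^ 2 + fB ^ 2 + fr B ^ 2) :=
    mul_le_mul_of_nonneg_left h3 (by positivity)
  linarith

/-- **(X2), first half.** -/
theorem err_mat (A B M N : Matrix q q ℝ) (U V : q → ℝ) {fA fB eta : ℝ}
    (hU : vn U ^ 2 ≤ fA) (hV : vn V ^ 2 ≤ fB) (he : 0 < eta) :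
    |∑ p, ∑ r, (A * B - M * N) p r * (U p * V r)| ≤
      eta * (fA ^ 2 + fB ^ 2 + fr B ^ 2 + fr M ^ 2) + (1 / eta) * (fr (A - M) + fr (B - N)) := by
  have e1 : ∑ p, ∑ r, (A * B - M * N) p r * (U p * V r) =
      ∑ p, ∑ r, ((A - M) * B) p r * (U p * V r) + ∑ p, ∑ r, (M * (B - N)) p r * (U p * V r) := by
    rw [← Finset.sum_add_distrib]
    refine Finset.sum_congr rfl fun p _ => ?_
    rw [← Finset.sum_add_distrib]
    refine Finset.sum_congr rfl fun r _ => ?_
    rw [show A * B - M * N = (A - M) * B + M * (B - N) by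
      rw [Matrix.sub_mul, Matrix.mul_sub]; abel, Matrix.add_apply]
    ring
  rw [e1]
  have h1 := err_one (A - M) B he hU hV (fr_mul_le (A - M) B)
  have h2 := err_one (B - N) M he hU hV ((fr_mul_le M (B - N)).trans (le_of_eq (mul_comm _ _)))
  have h3 : 1 / (2 * eta) * fr (A - M) ≤ 1 / eta * fr (A - M) :=
    mul_le_mul_of_nonneg_right (one_div_le_one_div_of_le he (by linarith)) (H332.fr_nonneg _)
  have h4 : 1 / (2 * eta) * fr (B - N) ≤ 1 / eta * fr (B - N) :=
    mul_le_mul_of_nonneg_right (one_div_le_one_div_of_le he (by linarith)) (H332.fr_nonneg _)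
  have h5 : 0 ≤ eta / 2 * (fr B ^ 2 + fr M ^ 2) := by positivity
  refine (abs_add_le _ _).trans ((add_le_add h1 h2).trans ?_)
  nlinarith

/-- **(X2), second half.** -/
theorem err_id (A M : Matrix q q ℝ) (U : q → ℝ) {fA eta : ℝ} (hU : vn U ^ 2 ≤ fA) (he : 0 < eta) :
    |(fr M - fr A) * ∑ p, U p ^ 2| ≤
      eta * (fA ^ 2 + fr A ^ 2 + fr M ^ 2) + (1 / eta) * fr (A - M) := by
  have hA := H332.fr_nonneg A
  have hM := H332.fr_nonneg M
  have h1 : (fr M - fr A) ^ 2 ≤ fr (A - M) * (2 * (fr M + fr A)) := by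
    have e1 : fr M - fr A = -∑ i : q × q, (A - M) i.1 i.2 * (M + A) i.1 i.2 := by
      rw [← Finset.univ_product_univ, Finset.sum_product]
      unfold fr
      rw [← Finset.sum_neg_distrib, ← Finset.sum_sub_distrib]
      refine Finset.sum_congr rfl fun i _ => ?_
      rw [← Finset.sum_neg_distrib, ← Finset.sum_sub_distrib]
      refine Finset.sum_congr rfl fun j _ => ?_
      simp only [Matrix.sub_apply, Matrix.add_apply]
      ring
    have h2 : ∑ i : q × q, (M + A) i.1 i.2 ^ 2 ≤ 2 * (fr M + fr A) := by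
      rw [← Finset.univ_product_univ, Finset.sum_product]
      unfold fr
      rw [← Finset.sum_add_distrib, Finset.mul_sum]
      refine Finset.sum_le_sum fun i _ => ?_
      rw [← Finset.sum_add_distrib, Finset.mul_sum]
      refine Finset.sum_le_sum fun j _ => ?_
      simp only [Matrix.add_apply]
      nlinarith [sq_nonneg (M i j - A i j)]
    have h3 : ∑ i : q × q, (A - M) i.1 i.2 ^ 2 = fr (A - M) := by
      rw [← Finset.univ_product_univ, Finset.sum_product]
      rfl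
    rw [e1, neg_sq]
    refine (Finset.sum_mul_sq_le_sq_mul_sq _ _ _).trans ?_
    rw [h3]
    exact mul_le_mul_of_nonneg_left h2 (H332.fr_nonneg _)
  have h4 : ((fr M - fr A) * ∑ p, U p ^ 2) ^ 2 ≤
      fr (A - M) * (2 * (fr M + fr A) * fA) := by
    rw [mul_pow, ← mul_assoc]
    exact mul_le_mul h1 hU (sq_nonneg _) (mul_nonneg (H332.fr_nonneg _) (by positivity))
  have hfA : 0 ≤ fA := (sq_nonneg _).trans hU
  have h5 := young_abs he (H332.fr_nonneg (A - M)) h4 (by positivity)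
  refine h5.trans ?_
  have h6 : 2 * (fr M + fr A) * fA ≤ 2 * (fA ^ 2 + fr A ^ 2 + fr M ^ 2) := by
    nlinarith [sq_nonneg (fr M - fA), sq_nonneg (fr A - fA), sq_nonneg (fr M), sq_nonneg (fr A)]
  have h7 : eta / 2 * (2 * (fr M + fr A) * fA) ≤
      eta / 2 * (2 * (fA ^ 2 + fr A ^ 2 + fr M ^ 2)) :=
    mul_le_mul_of_nonneg_left h6 (by positivity)
  have h8 : 1 / (2 * eta) * fr (A - M) ≤ 1 / eta * fr (A - M) :=
    mul_le_mul_of_nonneg_right (one_div_le_one_div_of_le he (by linarith)) (H332.fr_nonneg _)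
  linarith

end Vale.Agent.P146.H816
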