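import Vale.Agent.P146.H712.RowP
import Vale.Agent.P146.H706.Two

/-!
R1, item (8), cleaning: averages of products of functions of two different rows factorise; the
quartic functionals of the clean columns are the fixed bulk functionals.
-/

open MeasureTheory ProbabilityTheory

namespace Vale.Agent.P146.H816

open Vale.Agent.P157.Lv Vale.Agent.P146.H712

set_option linter.unusedSectionVars false

variable {ι : Type} [Fintype ι] [DecidableEq ι]

/-! ### partial averages over two sets of coordinates -/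

lemma sw_union (R R' : Finset ι) (z w : ι → ℝ) : sw (R ∪ R') z w = sw R' (sw R z w) w := by
  funext e
  unfold sw
  by_cases h : e ∈ R <;> by_cases h' : e ∈ R' <;> simp [h, h']

lemma sw_union' (R R' : Finset ι) (z w : ι → ℝ) : sw (R ∪ R') z w = sw R (sw R' z w) w := by
  rw [Finset.union_comm, sw_union]

lemma ind_mono {R R' : Finset ι} (h : R ⊆ R') {f : (ι → ℝ) → ℝ} (hf : Ind R' f) : Ind R f := by
  intro z w
  have h1 := hf z (fun e => if e ∈ R then w e else z e)
  have h2 : sw R' z (fun e => if e ∈ R then w e else z e) = sw R z w := by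
    funext e
    unfold sw
    by_cases h3 : e ∈ R
    · simp [h3, h h3]
    · by_cases h4 : e ∈ R' <;> simp [h3, h4]
  rw [← h2]
  exact h1

/-- an average over `R ∪ R'` of a function which does not depend on `R'` -/
lemma Av_union_ind {R R' : Finset ι} {f : (ι → ℝ) → ℝ} (hf : Ind R' f) (z : ι → ℝ) :
    Av (R ∪ R') f z = Av R f z := by
  unfold Av
  refine integral_congr_ae (Filter.Eventually.of_forall fun w => ?_)
  simp only
  rw [sw_union]
  exact hf _ _

/-- tower property -/
lemma Av_tower {R R' : Finset ι} {F : (ι → ℝ) → ℝ} (hF : EG F) (z : ι → ℝ) :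
    Av (R ∪ R') (Av R' F) z = Av (R ∪ R') F z := by
  set lev : ι → ℕ := fun e => if e ∈ R' then 2 else if e ∈ R then 1 else 0 with hlev
  have h0 : ∀ G : (ι → ℝ) → ℝ, Av (R ∪ R') G = J lev 0 G := by
    intro G
    funext z
    unfold Av J
    refine integral_congr_ae (Filter.Eventually.of_forall fun w => ?_)
    simp only
    congr 1
    funext e
    unfold sw mix
    rw [hlev]
    by_cases h : e ∈ R <;> by_cases h' : e ∈ R' <;> simp [h, h']
  have h1 : ∀ G : (ι → ℝ) → ℝ, Av R' G = J lev 1 G := by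
    intro G
    funext z
    unfold Av J
    refine integral_congr_ae (Filter.Eventually.of_forall fun w => ?_)
    simp only
    congr 1
    funext e
    unfold sw mix
    rw [hlev]
    by_cases h : e ∈ R <;> by_cases h' : e ∈ R' <;> simp [h, h']
  rw [h0, h0, h1]
  exact J_J (Nat.zero_le 1) hF z

lemma sw_comm {R R' : Finset ι} (h : Disjoint R R') (z w w' : ι → ℝ) :
    sw R (sw R' z w') w = sw R' (sw R z w) w' := by
  funext e
  unfold sw
  by_cases h1 : e ∈ R
  · have h2 : e ∉ R' := Finset.disjoint_left.1 h h1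
    simp [h1, h2]
  · by_cases h2 : e ∈ R' <;> simp [h1, h2]

/-- averages over other coordinates keep the independence -/
lemma ind_Av' {R R' : Finset ι} {f : (ι → ℝ) → ℝ} (hf : Ind R f) : Ind R (Av R' f) := by
  intro z w
  unfold Av
  refine integral_congr_ae (Filter.Eventually.of_forall fun w' => ?_)
  simp only
  have h1 : ∀ z w', f (sw R' z w') = f (sw (R' \ R) z w') := by
    intro z w'
    have h2 : sw R' z w' = sw R (sw (R' \ R) z w') (sw R' z w') := by
      funext e
      unfold sw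
      by_cases h1 : e ∈ R <;> by_cases h2 : e ∈ R' <;> simp [h1, h2]
    rw [h2, hf]
  rw [h1, h1, ← sw_comm (Finset.disjoint_sdiff : Disjoint R (R' \ R))]
  exact hf _ _

/-- **Factorisation.** -/
theorem prod_Av {R R' : Finset ι} {f g : (ι → ℝ) → ℝ} (hf : EG f) (hg : EG g) (hfi : Ind R' f)
    (hgi : Ind R g) (z : ι → ℝ) :
    Av (R ∪ R') (fun z => f z * g z) z = Av R f z * Av R' g z := by
  rw [← Av_tower (hf.mul hg)]
  have e1 : Av R' (fun z => f z * g z) = fun z => f z * Av R' g z := by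
    funext z
    exact Av_mul hfi g z
  rw [e1]
  have h1 : Ind R' fun z => f z * Av R' g z := by
    intro z w
    simp only
    rw [hfi, ind_Av]
  rw [Av_union_ind h1]
  have e2 : (fun z => f z * Av R' g z) = fun z => Av R' g z * f z := by
    funext z
    ring
  rw [e2, Av_mul (ind_Av' hgi), mul_comm]

lemma Av_sum {κ : Type*} (R : Finset ι) (S : Finset κ) {F : κ → (ι → ℝ) → ℝ}
    (hF : ∀ i ∈ S, EG (F i)) (z : ι → ℝ) :
    Av R (fun z => ∑ i ∈ S, F i z) z = ∑ i ∈ S, Av R (F i) z := by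
  unfold Av
  rw [integral_finsetSum]
  intro i hi
  have h := (hF i hi)
  have h1 : EG fun w => F i (sw R z w) := by
    obtain ⟨C, k, hC, hk, hb⟩ := h.bdd
    refine ⟨h.meas.comp ?_, C * Real.exp (k * ‖z‖), k, by positivity, hk, fun w => ?_⟩
    · refine measurable_pi_lambda _ fun e => ?_
      unfold sw
      split_ifs
      · exact measurable_pi_apply e
      · exact measurable_const
    · refine (hb _).trans ?_
      rw [mul_assoc, ← Real.exp_add]
      gcongr
      have h2 : ‖sw R z w‖ ≤ ‖z‖ + ‖w‖ := by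
        rw [pi_norm_le_iff_of_nonneg (by positivity)]
        intro e
        unfold sw
        split_ifs
        · exact (norm_le_pi_norm w e).trans (by linarith [norm_nonneg z])
        · exact (norm_le_pi_norm z e).trans (by linarith [norm_nonneg w])
      nlinarith
  exact h1.integrable

/-! ### action of a permutation of the coordinates -/

/-- action on the points -/
def actp (ρ : Equiv.Perm ι) (v : ι → ℝ) : ι → ℝ := fun e => v (ρ e)

lemma mp_actp (ρ : Equiv.Perm ι) : MeasurePreserving (actp ρ) (gI ι) (gI ι) := by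
  have h := measurePreserving_piCongrLeft (α := fun _ : ι => ℝ)
    (fun _ : ι => gaussianReal 0 1) ρ.symm
  convert h using 1
  funext g e
  rw [MeasurableEquiv.piCongrLeft, MeasurableEquiv.coe_mk]
  simp [actp, Equiv.piCongrLeft_apply]

lemma emb_actp (ρ : Equiv.Perm ι) : MeasurableEmbedding (actp ρ) := by
  have h := (MeasurableEquiv.piCongrLeft (fun _ : ι => ℝ) ρ.symm).measurableEmbedding
  convert h using 1
  funext g e
  rw [MeasurableEquiv.piCongrLeft, MeasurableEquiv.coe_mk]
  simp [actp, Equiv.piCongrLeft_apply]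

lemma integral_actp (ρ : Equiv.Perm ι) (f : (ι → ℝ) → ℝ) :
    ∫ z, f (actp ρ z) ∂(gI ι) = ∫ z, f z ∂(gI ι) :=
  (mp_actp ρ).integral_comp (emb_actp ρ) f

lemma eg_actp (ρ : Equiv.Perm ι) {f : (ι → ℝ) → ℝ} (hf : EG f) : EG fun z => f (actp ρ z) := by
  obtain ⟨C, k, hC, hk, hb⟩ := hf.bdd
  refine ⟨hf.meas.comp (measurable_pi_lambda _ fun e => measurable_pi_apply (ρ e)), C, k, hC, hk,
    fun w => (hb _).trans ?_⟩
  have h2 : ‖actp ρ w‖ ≤ ‖w‖ := by
    rw [pi_norm_le_iff_of_nonneg (norm_nonneg _)]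
    intro e
    exact norm_le_pi_norm w (ρ e)
  gcongr

lemma Av_actp (ρ : Equiv.Perm ι) {R R' : Finset ι} (h : ∀ e, ρ e ∈ R' ↔ e ∈ R)
    (F : (ι → ℝ) → ℝ) (z : ι → ℝ) :
    Av R' (fun z => F (actp ρ z)) z = Av R F (actp ρ z) := by
  unfold Av
  rw [← integral_actp ρ (fun w => F (sw R (actp ρ z) w))]
  refine integral_congr_ae (Filter.Eventually.of_forall fun w => ?_)
  simp only
  congr 1
  funext e
  unfold actp sw
  simp only [h e]

lemma ind_actp {ρ : Equiv.Perm ι} {S : Finset ι} (h : ∀ e, e ∉ S → ρ e = e) {F : (ι → ℝ) → ℝ}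
    (hF : Ind S F) (z : ι → ℝ) : F (actp ρ z) = F z := by
  have h1 : actp ρ z = sw S z (actp ρ z) := by
    funext e
    unfold sw actp
    by_cases he : e ∈ S
    · simp [he]
    · simp [he, h e he]
  rw [h1]
  exact hF _ _

/-! ### the fixed bulk functionals -/

variable {q : Type} [Fintype q] [DecidableEq q]

/-- two special sites: `R`, `R'` the coordinates of the rows, `a`, `d` clean columns -/
structure Two (R R' : Finset ι) (ρ : Equiv.Perm ι) (b b' : q) (a d a' d' : (ι → ℝ) → q → ℝ) :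
    Prop where
  ea : ∀ i, EG fun z => a z i
  ed : ∀ i, EG fun z => d z i
  ia : ∀ i, Ind R' fun z => a z i
  id : ∀ i, Ind R' fun z => d z i
  a0 : ∀ z, a z b' = 0
  d0 : ∀ z, d z b' = 0
  a0' : ∀ z, a' z b = 0
  d0' : ∀ z, d' z b = 0
  ha : ∀ i, i ≠ b → i ≠ b' → ∀ z, a' z i = a (actp ρ z) i
  hd : ∀ i, i ≠ b → i ≠ b' → ∀ z, d' z i = d (actp ρ z) i
  hR : ∀ e, ρ e ∈ R' ↔ e ∈ R
  hR' : ∀ e, ρ e ∈ R ↔ e ∈ R'
  hρ : ∀ e, e ∉ R ∪ R' → ρ e = e

/-- restriction to the bulk sites -/
def blk (b b' : q) (a : (ι → ℝ) → q → ℝ) (z : ι → ℝ) (i : q) : ℝ :=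
  if i = b ∨ i = b' then 0 else a z i

/-- the mixed second moment in the row -/
noncomputable def Nf (R : Finset ι) (b b' : q) (a d : (ι → ℝ) → q → ℝ) (i j : q) (z : ι → ℝ) : ℝ :=
  Av R (fun z => blk b b' a z i * blk b b' d z j) z

lemma eg_blk {b b' : q} {a : (ι → ℝ) → q → ℝ} (ha : ∀ i, EG fun z => a z i) (i : q) :
    EG fun z => blk b b' a z i := by
  unfold blk
  by_cases h : i = b ∨ i = b'
  · simp only [h, if_true]
    exact EG.const 0
  · simp only [h, if_false]
    exact ha i

lemma ind_blk {R : Finset ι} {b b' : q} {a : (ι → ℝ) → q → ℝ} (ha : ∀ i, Ind R fun z => a z i)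
    (i : q) : Ind R fun z => blk b b' a z i := by
  intro z w
  unfold blk
  by_cases h : i = b ∨ i = b'
  · simp only [h, if_true]
  · simp only [h, if_false]
    exact ha i z w

section two

variable {R R' : Finset ι} {ρ : Equiv.Perm ι} {b b' : q} {a d a' d' : (ι → ℝ) → q → ℝ}

open Vale.Agent.P146.H706 in
lemma dp_blk {u v : (ι → ℝ) → q → ℝ} (hu : ∀ z, u z b' = 0) (hv : ∀ z, v z b = 0) (z : ι → ℝ) :
    dp (u z) (v z) = ∑ i, blk b b' u z i * blk b b' v z i := by
  unfold dp blk
  refine Finset.sum_congr rfl fun i _ => ?_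
  by_cases h : i = b ∨ i = b'
  · simp only [h, if_true]
    rcases h with h | h
    · rw [h, hv, mul_zero, mul_zero]
    · rw [h, hu, zero_mul, mul_zero]
  · simp only [h, if_false]

lemma Two.blk_a (h : Two R R' ρ b b' a d a' d') (i : q) (z : ι → ℝ) :
    blk b b' a' z i = blk b b' a (actp ρ z) i := by
  unfold blk
  by_cases hi : i = b ∨ i = b'
  · simp only [hi, if_true]
  · simp only [hi, if_false]
    rw [not_or] at hi
    exact h.ha i hi.1 hi.2 z

lemma Two.blk_d (h : Two R R' ρ b b' a d a' d') (i : q) (z : ι → ℝ) :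
    blk b b' d' z i = blk b b' d (actp ρ z) i := by
  unfold blk
  by_cases hi : i = b ∨ i = b'
  · simp only [hi, if_true]
  · simp only [hi, if_false]
    rw [not_or] at hi
    exact h.hd i hi.1 hi.2 z

lemma ind_act {R R' : Finset ι} {ρ : Equiv.Perm ι} (hR' : ∀ e, ρ e ∈ R ↔ e ∈ R')
    {F : (ι → ℝ) → ℝ} (hF : Ind R' F) : Ind R fun z => F (actp ρ z) := by
  intro z w
  have h1 : actp ρ (sw R z w) = sw R' (actp ρ z) (actp ρ w) := by
    funext e
    unfold actp sw
    simp only [hR' e]
  simp only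
  rw [h1]
  exact hF _ _

/-- the general factorisation with the swap -/
lemma Two.fac (hR : ∀ e, ρ e ∈ R' ↔ e ∈ R) (hR' : ∀ e, ρ e ∈ R ↔ e ∈ R')
    (hρ : ∀ e, e ∉ R ∪ R' → ρ e = e) {f g : (ι → ℝ) → ℝ} (hf : EG f) (hg : EG g)
    (hfi : Ind R' f) (hgi : Ind R' g) (z : ι → ℝ) :
    Av (R ∪ R') (fun z => f z * g (actp ρ z)) z = Av R f z * Av R g z := by
  rw [prod_Av hf (eg_actp ρ hg) hfi (ind_act hR' hgi), Av_actp ρ hR]
  congr 1
  have h1 : Ind (R ∪ R') (Av R g) := by
    intro z w
    rw [sw_union, ind_Av' hgi, ind_Av]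
  exact ind_actp hρ h1 z

open Vale.Agent.P146.H706 in
/-- the three clean functionals -/
theorem Two.clean (h : Two R R' ρ b b' a d a' d') (z : ι → ℝ) :
    Av (R ∪ R') (fun z => dp (a z) (d' z) * dp (a z) (d' z)) z =
        ∑ i, ∑ j, Nf R b b' a a i j z * Nf R b b' d d i j z ∧
      Av (R ∪ R') (fun z => dp (a z) (a' z) * dp (d z) (d' z)) z =
        ∑ i, ∑ j, Nf R b b' a d i j z * Nf R b b' a d i j z ∧
      Av (R ∪ R') (fun z => dp (a z) (d' z) * dp (d z) (a' z)) z =
        ∑ i, ∑ j, Nf R b b' a d i j z * Nf R b b' a d j i z := by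
  have ea : ∀ i, EG fun z => blk b b' a z i := eg_blk h.ea
  have ed : ∀ i, EG fun z => blk b b' d z i := eg_blk h.ed
  have ia : ∀ i, Ind R' fun z => blk b b' a z i := ind_blk h.ia
  have id : ∀ i, Ind R' fun z => blk b b' d z i := ind_blk h.id
  have key : ∀ (u v u' v' : (ι → ℝ) → q → ℝ), (∀ i, EG fun z => u z i) → (∀ i, EG fun z => v z i) →
      (∀ i, EG fun z => u' z i) → (∀ i, EG fun z => v' z i) →
      (∀ i, Ind R' fun z => u z i) → (∀ i, Ind R' fun z => v z i) →
      (∀ i, Ind R' fun z => u' z i) → (∀ i, Ind R' fun z => v' z i) →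
      Av (R ∪ R') (fun z => (∑ i, u z i * u' (actp ρ z) i) * ∑ i, v z i * v' (actp ρ z) i) z =
        ∑ i, ∑ j, Av R (fun z => u z i * v z j) z * Av R (fun z => u' z i * v' z j) z := by
    intro u v u' v' e1 e2 e3 e4 i1 i2 i3 i4
    have e5 : (fun z => (∑ i, u z i * u' (actp ρ z) i) * ∑ i, v z i * v' (actp ρ z) i) =
        fun z => ∑ i, ∑ j, (u z i * v z j) *
          (fun z => u' z i * v' z j) (actp ρ z) := by
      funext z
      rw [Finset.sum_mul_sum]
      exact Finset.sum_congr rfl fun i _ => Finset.sum_congr rfl fun j _ => by ring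
    rw [e5, Av_sum _ _ fun i _ => EG.sum _ fun j _ =>
      ((e1 i).mul (e2 j)).mul (eg_actp ρ ((e3 i).mul (e4 j)))]
    refine Finset.sum_congr rfl fun i _ => ?_
    rw [Av_sum _ _ fun j _ => ((e1 i).mul (e2 j)).mul (eg_actp ρ ((e3 i).mul (e4 j)))]
    refine Finset.sum_congr rfl fun j _ => ?_
    refine Two.fac h.hR h.hR' h.hρ ((e1 i).mul (e2 j)) ((e3 i).mul (e4 j)) ?_ ?_ z
    · intro z w
      have k1 := i1 i z w
      have k2 := i2 j z w
      simp only at k1 k2 ⊢
      rw [k1, k2]
    · intro z w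
      have k1 := i3 i z w
      have k2 := i4 j z w
      simp only at k1 k2 ⊢
      rw [k1, k2]
  refine ⟨?_, ?_, ?_⟩
  · have e1 : (fun z => dp (a z) (d' z) * dp (a z) (d' z)) =
        fun z => (∑ i, blk b b' a z i * blk b b' d (actp ρ z) i) *
          ∑ i, blk b b' a z i * blk b b' d (actp ρ z) i := by
      funext z
      rw [dp_blk h.a0 h.d0']
      simp only [h.blk_d]
    rw [e1]
    exact key _ _ _ _ ea ea ed ed ia ia id id
  · have e1 : (fun z => dp (a z) (a' z) * dp (d z) (d' z)) =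
        fun z => (∑ i, blk b b' a z i * blk b b' a (actp ρ z) i) *
          ∑ i, blk b b' d z i * blk b b' d (actp ρ z) i := by
      funext z
      rw [dp_blk h.a0 h.a0', dp_blk h.d0 h.d0']
      simp only [h.blk_d, h.blk_a]
    rw [e1]
    exact key _ _ _ _ ea ed ea ed ia id ia id
  · have e1 : (fun z => dp (a z) (d' z) * dp (d z) (a' z)) =
        fun z => (∑ i, blk b b' a z i * blk b b' d (actp ρ z) i) *
          ∑ i, blk b b' d z i * blk b b' a (actp ρ z) i := by
      funext z
      rw [dp_blk h.a0 h.d0', dp_blk h.d0 h.a0']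
      simp only [h.blk_d, h.blk_a]
    rw [e1]
    refine (key _ _ _ _ ea ed ed ea ia id id ia).trans ?_
    refine Finset.sum_congr rfl fun i _ => Finset.sum_congr rfl fun j _ => ?_
    unfold Nf
    congr 1
    congr 1
    funext z
    ring

end two

end Vale.Agent.P146.H816
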