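import Vale.Agent.P146.H325.Fo
import Vale.Agent.P146.H706.LawC

/-!
Plan R1: the moments of the size of the matrices under the law with the two rows averaged, and the
numbers of the errors of the item (8).
-/

open MeasureTheory ProbabilityTheory

namespace Vale.Agent.P146.R1C

open Vale.Agent.P157.Lv Vale.Agent.P146.H425 Vale.Agent.P146.H325 Vale.Agent.P146.H332
  Vale.Agent.P146.H712 Vale.Agent.P146.H816 Vale.Agent.P146.R1 Matrix

set_option linter.unusedSectionVars false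

section gen

variable {κ : Type} [Fintype κ] [DecidableEq κ] {q : Par} {F : (κ → ℝ) → ℝ}
  {D : κ → (κ → ℝ) → ℝ} {B L : ℝ}

/-- The law change of nonnegative bounded functions, normalized, with the error `ε`. -/
def Low (q : Par) (F : (κ → ℝ) → ℝ) (R : Finset (K4 κ)) (ε : ℝ) : Prop :=
  ∀ (f : (K4 κ → ℝ) → ℝ) (K : ℝ), EG f → (∀ w, 0 ≤ f w) → (∀ w, f w ≤ K) →
    En q F (Av R f) ≤ 2 * En q F f + K * ε

lemma int_Av_dens (h : C11 F D B L) (hx : 0 < q.x) {R : Finset (K4 κ)}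
    {f : (K4 κ → ℝ) → ℝ} (hf : EG f) :
    ∫ w, Av R (dens q F) w * f w ∂(gI (K4 κ)) = Ew q F (fun _ => 1) * En q F (Av R f) := by
  have h1 : ∫ w, Av R (dens q F) w * f w ∂(gI (K4 κ)) = Ew q F (Av R f) :=
    (H706.int_mul_Av (eg_den h hx) hf).symm
  rw [h1]
  unfold En
  have := (Ew1_pos (q := q) h hx).ne'
  field_simp

lemma low_int (h : C11 F D B L) (hx : 0 < q.x) {R : Finset (K4 κ)} {ε : ℝ}
    (hl : Low q F R ε) {f : (K4 κ → ℝ) → ℝ} {K : ℝ} (hf : EG f) (h0 : ∀ w, 0 ≤ f w)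
    (hK : ∀ w, f w ≤ K) :
    ∫ w, Av R (dens q F) w * f w ∂(gI (K4 κ)) ≤
      Ew q F (fun _ => 1) * (2 * En q F f + K * ε) := by
  rw [int_Av_dens h hx hf]
  exact mul_le_mul_of_nonneg_left (hl f K hf h0 hK) (Ew1_pos h hx).le

lemma int_Av_one (h : C11 F D B L) (hx : 0 < q.x) {R : Finset (K4 κ)} :
    ∫ w, Av R (dens q F) w ∂(gI (K4 κ)) = Ew q F (fun _ => 1) := by
  rw [integral_Av R (eg_den h hx)]
  unfold Ew
  simp only [mul_one]

end gen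

section mom

variable {n : ℕ} {β A δ T ρ : ℝ} {q : Par} {F : (Pair n → ℝ) → ℝ}
  {AM : ℝ → (Pair n → ℝ) → Matrix (Fin n) (Fin n) ℝ}
  {DM : ℝ → Pair n → (Pair n → ℝ) → Matrix (Fin n) (Fin n) ℝ}

/-- `y = k² A N = 2 A ρ` -/
lemma Fo.y1 (h : Fo n β A δ T ρ q F AM DM) : 1 ≤ 2 * A * ρ := by
  have h1 := h.ρ1
  have h2 := h.A1
  nlinarith

lemma Fo.k_y (h : Fo n β A δ T ρ q F AM DM) : kk n β ^ 2 * (A * NN n β ρ) = 2 * A * ρ := by
  have h1 := kk_NN h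
  calc kk n β ^ 2 * (A * NN n β ρ) = A * (kk n β ^ 2 * NN n β ρ) := by ring
    _ = _ := by rw [h1]; ring

lemma Fo.kk0 (h : Fo n β A δ T ρ q F AM DM) : 0 < kk n β := by
  have h2 := h.n0
  have h3 := h.β0
  unfold kk
  positivity

lemma Fo.kk2 (h : Fo n β A δ T ρ q F AM DM) : kk n β ^ 2 * n = β ^ 2 := by
  have h2 := h.n0
  unfold kk
  rw [div_pow, Real.sq_sqrt (by positivity)]
  field_simp

lemma Fo.kk_le (h : Fo n β A δ T ρ q F AM DM) : kk n β ^ 2 ≤ 1 := by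
  have h2 := h.n0
  have h3 := h.kk2
  have h4 := h.βn
  by_contra hc
  push Not at hc
  nlinarith

/-- **The moments of the size under the law of a pair.** -/
theorem Fo.mom_ph (h : Fo n β A δ T ρ q F AM DM) {D : Pair n → (Pair n → ℝ) → ℝ} {B L : ℝ}
    (hc : C11 F D B L) {R : Finset (K4 (Pair n))} {ε : ℝ} (hl : Low q F R ε) (hε0 : 0 ≤ ε)
    (hε : (n : ℝ) ^ 20 * ε ≤ 1) {f : (K4 (Pair n) → ℝ) → ℝ} (hf : EG f) (h0 : ∀ w, 0 ≤ f w)
    (hK : ∀ w, f w ≤ (n : ℝ) ^ 2)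
    (hδ : En q F (fun w => if A * NN n β ρ < f w then (1 : ℝ) else 0) ≤ δ)
    {s : ℝ} (hs0 : 0 ≤ s) (hs1 : s ≤ 1) (p : ℕ) (hp : p ≤ 10) :
    ∫ w, Av R (dens q F) w * (s * kk n β ^ 2 * f w) ^ p ∂(gI (K4 (Pair n))) ≤
      Ew q F (fun _ => 1) * (5 * (2 * A * ρ) ^ p) := by
  have hk := h.kk_le
  have hk0 : 0 ≤ kk n β ^ 2 := sq_nonneg _
  have hn := h.n0
  have h1 := low_int hc h.ok.x0 hl (hf.pow p) (fun w => pow_nonneg (h0 w) p)
    (K := ((n : ℝ) ^ 2) ^ p) (fun w => pow_le_pow_left₀ (h0 w) (hK w) p)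
  have h2 := h.mom hc hf h0 hK hδ p (by omega)
  have e1 : ∀ w, Av R (dens q F) w * (s * kk n β ^ 2 * f w) ^ p =
      (s * kk n β ^ 2) ^ p * (Av R (dens q F) w * f w ^ p) := by
    intro w
    rw [mul_pow]
    ring
  simp only [e1]
  rw [integral_const_mul]
  have hZ := Ew1_pos (q := q) hc h.ok.x0
  have h3 : (s * kk n β ^ 2) ^ p ≤ (kk n β ^ 2) ^ p :=
    pow_le_pow_left₀ (by positivity) (by nlinarith) p
  have h4 : 0 ≤ ∫ w, Av R (dens q F) w * f w ^ p ∂(gI (K4 (Pair n))) := by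
    refine integral_nonneg fun w => mul_nonneg (integral_nonneg fun w => (den_pos _).le) ?_
    exact pow_nonneg (h0 w) p
  have h5 : ((n : ℝ) ^ 2) ^ p * ε ≤ 1 := by
    refine le_trans (mul_le_mul_of_nonneg_right ?_ hε0) hε
    rw [← pow_mul]
    exact pow_le_pow_right₀ (by linarith) (by omega)
  have h6 : (kk n β ^ 2) ^ p * (2 * (2 * (A * NN n β ρ) ^ p) + 1) ≤ 5 * (2 * A * ρ) ^ p := by
    have h7 : (kk n β ^ 2) ^ p * (A * NN n β ρ) ^ p = (2 * A * ρ) ^ p := by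
      rw [← mul_pow, h.k_y]
    have h8 : (kk n β ^ 2) ^ p ≤ 1 := pow_le_one₀ hk0 hk
    have h9 : 1 ≤ (2 * A * ρ) ^ p := one_le_pow₀ h.y1
    calc (kk n β ^ 2) ^ p * (2 * (2 * (A * NN n β ρ) ^ p) + 1)
        = 4 * ((kk n β ^ 2) ^ p * (A * NN n β ρ) ^ p) + (kk n β ^ 2) ^ p := by ring
      _ ≤ 4 * (2 * A * ρ) ^ p + 1 := by rw [h7]; linarith
      _ ≤ _ := by linarith
  calc (s * kk n β ^ 2) ^ p * ∫ w, Av R (dens q F) w * f w ^ p ∂(gI (K4 (Pair n)))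
      ≤ (kk n β ^ 2) ^ p * ∫ w, Av R (dens q F) w * f w ^ p ∂(gI (K4 (Pair n))) :=
        mul_le_mul_of_nonneg_right h3 h4
    _ ≤ (kk n β ^ 2) ^ p * (Ew q F (fun _ => 1) * (2 * (2 * (A * NN n β ρ) ^ p) + 1)) := by
        refine mul_le_mul_of_nonneg_left (h1.trans ?_) (by positivity)
        refine mul_le_mul_of_nonneg_left ?_ hZ.le
        linarith
    _ = Ew q F (fun _ => 1) * ((kk n β ^ 2) ^ p * (2 * (2 * (A * NN n β ρ) ^ p) + 1)) := by ring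
    _ ≤ _ := mul_le_mul_of_nonneg_left h6 hZ.le

end mom

/-! ### the numbers -/

section num

/-- the number of the law change: `x k √y y² n²` with `y = k² A N` -/
lemma num_ls {n β A N x k y : ℝ} (hn : 0 < n) (hβ : 0 < β) (hA : 1 ≤ A)
    (hx : 0 ≤ x) (hk : k ^ 2 * n = β ^ 2) (hk0 : 0 ≤ k) (hy : k ^ 2 * (A * N) = y) :
    n ^ 2 * (x * (k * √y) * y ^ 2) ≤ β ^ 6 * A ^ 3 * (x * (√N / n) * N ^ 2) := by
  have hA0 : 0 ≤ A := by linarith
  have e1 : √y = k * (√A * √N) := by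
    rw [← hy, Real.sqrt_mul (sq_nonneg k), Real.sqrt_sq hk0, Real.sqrt_mul hA0]
  have e2 : √A ≤ A := by
    rw [Real.sqrt_le_left hA0]
    nlinarith
  have h4 : k ^ 2 = β ^ 2 / n := by
    field_simp
    exact hk
  have e3 : n ^ 2 * (x * (k * √y) * y ^ 2) = (k ^ 2) ^ 3 * n ^ 2 * A ^ 2 * √A *
      (x * √N * N ^ 2) := by
    rw [e1, ← hy]
    ring
  rw [e3, h4]
  have e4 : (β ^ 2 / n) ^ 3 * n ^ 2 * A ^ 2 * √A * (x * √N * N ^ 2) =
      (β ^ 6 * A ^ 2 * (x * (√N / n) * N ^ 2)) * √A := by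
    field_simp
  have e5 : β ^ 6 * A ^ 3 * (x * (√N / n) * N ^ 2) =
      (β ^ 6 * A ^ 2 * (x * (√N / n) * N ^ 2)) * A := by ring
  rw [e4, e5]
  exact mul_le_mul_of_nonneg_left e2 (by positivity)

/-- the number of the touches: `n √(y³ A N / T)` -/
lemma num_dl {n β A N k y T : ℝ} (hn : 0 < n) (hβ : 0 < β) (hA : 1 ≤ A)
    (hk : k ^ 2 * n = β ^ 2) (hT : 0 < T) (hy : k ^ 2 * (A * N) = y) :
    n * √(y ^ 3 * (A * N / T)) = β ^ 3 * A ^ 2 * (N ^ 2 / √(n * T)) := by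
  have hA0 : 0 ≤ A := by linarith
  have h4 : k ^ 2 = β ^ 2 / n := by
    field_simp
    exact hk
  have e1 : y ^ 3 * (A * N / T) = (β ^ 3 * A ^ 2 * N ^ 2 / n) ^ 2 * (1 / (n * T)) := by
    rw [← hy, h4]
    field_simp
  rw [e1, Real.sqrt_mul (sq_nonneg _), Real.sqrt_sq (by positivity), Real.sqrt_div zero_le_one,
    Real.sqrt_one]
  field_simp

end num

end Vale.Agent.P146.R1C
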